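import Crest.Agent.N250.B1.Max
import Crest.Agent.N250.Ra.Fou
import Crest.Agent.N250.Ra.Lan
import Crest.Agent.N250.Po.Pol
import Crest.Agent.N250.E.PJ
import Crest.Agent.N250.S9.Cast

-- ▼ part N250/Ra/Ode
section

/-!
Row 250 (helper94): decay for `y'' = (x/2) y' + V y + f` on a half line.
-/

set_option autoImplicit false

open Set Filter
open scoped Topology

namespace Crest.Agent.N250.Ra

open Crest.Agent.N250.B1

theorem anti_nonneg {f f' : ℝ → ℝ} {a : ℝ} (hf : ∀ x, a ≤ x → HasDerivAt f (f' x) x)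
    (h : ∀ x, a ≤ x → f' x ≤ 0) (h0 : Tendsto f atTop (𝓝 0)) {x : ℝ} (hx : a ≤ x) : 0 ≤ f x := by
  have ha : AntitoneOn f (Ici a) := antitoneOn_of_deriv_nonpos (convex_Ici a)
    (fun y hy => (hf y hy).continuousAt.continuousWithinAt)
    (fun y hy => (hf y (interior_subset hy)).differentiableAt.differentiableWithinAt)
    fun y hy => by rw [(hf y (interior_subset hy)).deriv]; exact h y (interior_subset hy)
  exact le_of_tendsto h0 ((eventually_ge_atTop x).mono fun y hy => ha hx (hx.trans hy) hy)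

theorem gauss_sq : Tendsto (fun x : ℝ => Real.exp (-x ^ 2 / 4) * x ^ 2) atTop (𝓝 0) := by
  have h1 : Tendsto (fun x : ℝ => x ^ 2 / 4) atTop atTop :=
    (tendsto_pow_atTop two_ne_zero).atTop_div_const (by norm_num)
  have h2 := ((Real.tendsto_pow_mul_exp_neg_atTop_nhds_zero 1).comp h1).const_mul 4
  rw [mul_zero] at h2
  refine h2.congr fun x => ?_
  simp only [Function.comp_apply, neg_div]
  ring

/-- the slow modes: a bounded solution tending to zero is controlled by the source -/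
theorem low_re {y y1 f J J1 : ℝ → ℝ} {a κ M B : ℝ} (ha : 1 ≤ a) (hM : 0 ≤ M)
    (hy : ∀ x, a ≤ x → HasDerivAt y (y1 x) x)
    (hy1 : ∀ x, a ≤ x → HasDerivAt y1 (x / 2 * y1 x - κ * y x + f x) x)
    (hJ : ∀ x, HasDerivAt J (J1 x) x) (hJ1 : ∀ x, HasDerivAt J1 (x / 2 * J1 x - κ * J x) x)
    (b1 : ∀ x, a ≤ x → x ≤ J x ∧ J x ≤ x ^ 2 ∧ J1 x ≤ x ^ 2 ∧ J x ≤ x * J1 x ∧ J1 x ≤ x * J x / 4)
    (hB : ∀ x, a ≤ x → |y x| ≤ B ∧ |y1 x| ≤ B) (hf : ∀ x, a ≤ x → f x ≤ M) {x : ℝ} (hx : a ≤ x) :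
    y x ≤ 4 * M := by
  have hE : ∀ x : ℝ, HasDerivAt (fun x : ℝ => Real.exp (-x ^ 2 / 4))
      (Real.exp (-x ^ 2 / 4) * (-x / 2)) x := fun x => by
    have := (((hasDerivAt_pow 2 x).fun_neg).div_const 4).exp
    convert this using 2
    simp; ring
  have hp : ∀ x, a ≤ x → 0 < x ∧ 0 < J x ∧ 0 < J1 x := fun x hx => by
    have h0 : 0 < x := by linarith
    have h1 : 0 < J x := h0.trans_le (b1 x hx).1
    exact ⟨h0, h1, (pos_iff_pos_of_mul_pos (h1.trans_le (b1 x hx).2.2.2.1)).1 h0⟩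
  have hW : ∀ x, a ≤ x → 0 ≤ Real.exp (-x ^ 2 / 4) * (y1 x * J x - y x * J1 x + M * (4 * J x / x)) := by
    intro x hx
    refine anti_nonneg (f := fun x => Real.exp (-x ^ 2 / 4) *
      (y1 x * J x - y x * J1 x + M * (4 * J x / x))) (fun z hz => (hE z).fun_mul
        ((((hy1 z hz).fun_mul (hJ z)).fun_sub ((hy z hz).fun_mul (hJ1 z))).fun_add
          ((((hJ z).const_mul 4).fun_div (hasDerivAt_id' z) (hp z hz).1.ne').const_mul M)))
      (fun z hz => ?_) ?_ hx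
    · obtain ⟨h0, h1, h2⟩ := hp z hz
      have h3 : (4 * J1 z * z - 4 * J z * 1) / z ^ 2 ≤ J z := by
        rw [div_le_iff₀ (by positivity)]
        nlinarith [(b1 z hz).2.2.2.2]
      have h4 : Real.exp (-z ^ 2 / 4) * (-z / 2) * (y1 z * J z - y z * J1 z + M * (4 * J z / z)) +
          Real.exp (-z ^ 2 / 4) * ((z / 2 * y1 z - κ * y z + f z) * J z + y1 z * J1 z -
            (y1 z * J1 z + y z * (z / 2 * J1 z - κ * J z)) + M * ((4 * J1 z * z - 4 * J z * 1) / z ^ 2)) =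
          Real.exp (-z ^ 2 / 4) * (f z * J z - 2 * M * J z + M * ((4 * J1 z * z - 4 * J z * 1) / z ^ 2)) := by
        field_simp; ring
      rw [h4]
      refine mul_nonpos_of_nonneg_of_nonpos (Real.exp_pos _).le ?_
      nlinarith [mul_le_mul_of_nonneg_left h3 hM, mul_le_mul_of_nonneg_right (hf z hz) h1.le]
    · have h1 := gauss_sq.const_mul (2 * B + 4 * M)
      rw [mul_zero] at h1
      refine squeeze_zero_norm' ((eventually_ge_atTop a).mono fun z hz => ?_) h1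
      obtain ⟨h0, h2, h3⟩ := hp z hz
      obtain ⟨c1, c2, c3, -, -⟩ := b1 z hz
      obtain ⟨d1, d2⟩ := hB z hz
      have hB0 : 0 ≤ B := (abs_nonneg _).trans d1
      rw [Real.norm_eq_abs, abs_mul, abs_of_pos (Real.exp_pos _), mul_left_comm]
      refine mul_le_mul_of_nonneg_left ?_ (Real.exp_pos _).le
      have e1 : |y1 z * J z| ≤ B * z ^ 2 := by
        rw [abs_mul, abs_of_pos h2]; exact mul_le_mul d2 c2 h2.le hB0
      have e2 : |y z * J1 z| ≤ B * z ^ 2 := by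
        rw [abs_mul, abs_of_pos h3]; exact mul_le_mul d1 c3 h3.le hB0
      have e3 : 4 * J z / z ≤ 4 * z ^ 2 := by
        rw [div_le_iff₀ h0]; nlinarith [sq_nonneg z]
      have e4 : 0 ≤ 4 * J z / z := by positivity
      rw [abs_le] at e1 e2 ⊢
      constructor <;> nlinarith [mul_le_mul_of_nonneg_left e3 hM, mul_nonneg hM e4]
  have hZ : 0 ≤ (4 * M - y x) / J x := by
    refine anti_nonneg (f := fun x => (4 * M - y x) / J x) (fun z hz =>
      ((hy z hz).const_sub (4 * M)).fun_div (hJ z) (hp z hz).2.1.ne') (fun z hz => ?_) ?_ hx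
    · obtain ⟨h0, h1, h2⟩ := hp z hz
      refine div_nonpos_of_nonpos_of_nonneg ?_ (sq_nonneg _)
      have h3 := (mul_nonneg_iff_of_pos_left (Real.exp_pos _)).1 (hW z hz)
      have h4 : 4 * J z / z ≤ 4 * J1 z := by
        rw [div_le_iff₀ h0]; nlinarith [(b1 z hz).2.2.2.1]
      nlinarith [mul_le_mul_of_nonneg_left h4 hM]
    · have h1 := tendsto_inv_atTop_zero.const_mul (4 * M + B)
      rw [mul_zero] at h1
      refine squeeze_zero_norm' ((eventually_ge_atTop a).mono fun z hz => ?_) h1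
      obtain ⟨h0, h2, -⟩ := hp z hz
      have d1 := (hB z hz).1
      have hB0 : 0 ≤ B := (abs_nonneg _).trans d1
      rw [Real.norm_eq_abs, abs_div, abs_of_pos h2, ← div_eq_mul_inv]
      refine div_le_div₀ (by positivity) ?_ h0 (b1 z hz).1
      rw [abs_le] at d1 ⊢
      constructor <;> linarith
  have := (div_nonneg_iff.1 hZ).resolve_right fun h => absurd h.2 (not_le.2 (hp x hx).2.1)
  linarith [this.1]

/-- modes `0` (`κ = 1`) and `±1` (`κ = 1/2`) -/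
theorem low {y y1 f : ℝ → ℂ} {a κ M B : ℝ} (ha : 4 ≤ a) (hκ : κ = 1 ∨ κ = 1 / 2)
    (hy : ∀ x, a ≤ x → HasDerivAt y (y1 x) x)
    (hy1 : ∀ x, a ≤ x → HasDerivAt y1 ((x / 2 : ℝ) * y1 x - κ * y x + f x) x)
    (hB : ∀ x, a ≤ x → ‖y x‖ ≤ B ∧ ‖y1 x‖ ≤ B) (hf : ∀ x, a ≤ x → ‖f x‖ ≤ M) {x : ℝ} (hx : a ≤ x) :
    ‖y x‖ ≤ 4 * M := by
  obtain ⟨c, hc, e⟩ := exists_rot (y x)
  have hM : 0 ≤ M := (norm_nonneg _).trans (hf a le_rfl)
  have hre : ∀ {u : ℝ → ℂ} {u1 : ℂ} {z : ℝ}, HasDerivAt u u1 z →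
      HasDerivAt (fun z => (c * u z).re) (c * u1).re z := fun h =>
    Complex.reCLM.hasFDerivAt.comp_hasDerivAt _ (h.const_mul c)
  have hab : ∀ z : ℂ, |(c * z).re| ≤ ‖z‖ := fun z => abs_le.2 ⟨neg_le_re_mul hc, re_mul_le hc⟩
  have key : ∀ J J1 : ℝ → ℝ, (∀ x, HasDerivAt J (J1 x) x) →
      (∀ x, HasDerivAt J1 (x / 2 * J1 x - κ * J x) x) →
      (∀ x, a ≤ x → x ≤ J x ∧ J x ≤ x ^ 2 ∧ J1 x ≤ x ^ 2 ∧ J x ≤ x * J1 x ∧ J1 x ≤ x * J x / 4) →
      (c * y x).re ≤ 4 * M := fun J J1 h1 h2 h3 =>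
    low_re (y := fun z => (c * y z).re) (y1 := fun z => (c * y1 z).re) (f := fun z => (c * f z).re)
      (B := B) (by linarith) hM (fun z hz => hre (hy z hz)) (fun z hz => by
        convert hre (hy1 z hz) using 1
        simp only [mul_add, mul_sub, Complex.add_re, Complex.sub_re, mul_left_comm c,
          Complex.re_ofReal_mul]) h1 h2 h3
      (fun z hz => ⟨(hab _).trans (hB z hz).1, (hab _).trans (hB z hz).2⟩)
      (fun z hz => (re_mul_le hc).trans (hf z hz)) hx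
  rw [e, Complex.ofReal_re] at key
  rcases hκ with rfl | rfl
  · refine key (fun x => x ^ 2 - 2) (fun x => 2 * x) (fun x => ?_) (fun x => ?_) fun x hx => ?_
    · simpa using (hasDerivAt_pow 2 x).sub_const 2
    · exact ((hasDerivAt_id' x).const_mul 2).congr_deriv (by ring)
    · have : 4 ≤ x := ha.trans hx
      have h1 : 16 ≤ x ^ 2 := by nlinarith
      refine ⟨by nlinarith, by linarith, by nlinarith, by nlinarith, by nlinarith⟩
  · refine key (fun x => x) (fun _ => 1) (fun x => hasDerivAt_id' x) (fun x => ?_) fun x hx => ?_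
    · exact (hasDerivAt_const x (1 : ℝ)).congr_deriv (by ring)
    · have : 4 ≤ x := ha.trans hx
      refine ⟨le_rfl, by nlinarith, by nlinarith, by linarith, by nlinarith⟩

/-- the fast modes -/
theorem high {y y1 f : ℝ → ℂ} {a V g M : ℝ} (ha : 0 < a) (hV : 1 ≤ V) (hg : 0 ≤ g)
    (hga : g * (g + 1) ≤ (1 - g / 2) * a ^ 2) (hy : ∀ x, a ≤ x → HasDerivAt y (y1 x) x)
    (hy1 : ∀ x, a ≤ x → HasDerivAt y1 ((x / 2 : ℝ) * y1 x + V * y x + f x) x)
    (h0 : Tendsto y atTop (𝓝 0)) (hf : ∀ x, a ≤ x → ‖f x‖ ≤ M) {x : ℝ} (hx : a ≤ x) :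
    ‖y x‖ ≤ ‖y a‖ * a ^ g * x ^ (-g) + M / V := by
  have hM : 0 ≤ M := (norm_nonneg _).trans (hf a le_rfl)
  refine le_of_forall_pos_le_add fun ε hε => ?_
  obtain ⟨b, hb1, hb2⟩ := ((eventually_gt_atTop x).and
    (h0.norm.eventually (gt_mem_nhds (show ‖(0 : ℂ)‖ < ε by simpa using hε)))).exists
  set A := ‖y a‖ * a ^ g with hA
  have hA0 : 0 ≤ A := by positivity
  have hp : ∀ z ∈ Icc a b, 0 < z := fun z hz => ha.trans_le hz.1
  have := max2 (w := y) (w1 := y1) (g := f) (V := fun _ => V) (B := fun x => x / 2)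
    (Ω := fun x => A * x ^ (-g) + M / V + ε) (Ω1 := fun x => A * (-g * x ^ (-g - 1)))
    (Ω2 := fun x => A * (-g * ((-g - 1) * x ^ (-g - 1 - 1)))) (γ := fun _ => M + ε) (M := 1)
    (hx.trans_lt hb1) (Dv.of_hasDerivAt fun z hz => hy z hz.1)
    (Dv.of_hasDerivAt fun z hz => hy1 z hz.1)
    (Dv.of_hasDerivAt fun z hz => (((Real.hasDerivAt_rpow_const
      (Or.inl (hp z hz).ne')).const_mul A).add_const _).add_const _)
    (Dv.of_hasDerivAt fun z hz => ((Real.hasDerivAt_rpow_const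
      (Or.inl (hp z hz).ne')).const_mul (-g)).const_mul A)
    (fun z hz => by have := hp z hz; positivity) (fun _ _ => by positivity) (fun z hz => ?_)
    (fun z hz => by linarith [hf z hz.1.le]) ?_ (Or.inl ?_) x ⟨hx, hb1.le⟩
  · linarith
  · have hz0 := hp z (Ioo_subset_Icc_self hz)
    have e1 : z ^ (-g - 1) = z ^ (-g) / z := Real.rpow_sub_one hz0.ne' _
    have e2 : z ^ (-g - 1 - 1) = z ^ (-g) / z / z := by rw [Real.rpow_sub_one hz0.ne', e1]
    have h1 : g * (g + 1) / z ^ 2 ≤ 1 - g / 2 := by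
      have h2 : 0 ≤ 1 - g / 2 := by
        by_contra h
        push Not at h
        nlinarith [mul_neg_of_neg_of_pos h (pow_pos ha 2), mul_nonneg hg (by linarith : 0 ≤ g + 1)]
      rw [div_le_iff₀ (by positivity)]
      exact hga.trans (mul_le_mul_of_nonneg_left (pow_le_pow_left₀ ha.le hz.1.le 2) h2)
    have h3 : A * (-g * ((-g - 1) * z ^ (-g - 1 - 1))) - z / 2 * (A * (-g * z ^ (-g - 1))) -
        V * (A * z ^ (-g) + M / V + ε) =
        A * z ^ (-g) * (g * (g + 1) / z ^ 2 + g / 2 - V) - M - V * ε := by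
      rw [e1, e2]; field_simp; ring
    simp only [Complex.ofReal_re]
    rw [h3]
    have h4 : 0 ≤ A * z ^ (-g) := by positivity
    nlinarith [mul_nonneg h4 (show 0 ≤ -(g * (g + 1) / z ^ 2 + g / 2 - V) by linarith)]
  · have : A * a ^ (-g) = ‖y a‖ := by
      rw [hA, mul_assoc, ← Real.rpow_add ha, add_neg_cancel, Real.rpow_zero, mul_one]
    have h1 : 0 ≤ M / V := by positivity
    linarith
  · have h1 : 0 ≤ M / V := by positivity
    have h2 : 0 ≤ A * b ^ (-g) := by have := hp b ⟨hx.trans hb1.le, le_rfl⟩; positivity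
    linarith

end Crest.Agent.N250.Ra
end

-- ▼ part N250/Ra/Rate
section

/-!
Row 250 (helper94): the a priori rate `x ^ (-g)`, `g < 2`, on a cylindrical end.
-/

set_option autoImplicit false

open Set Filter
open scoped Topology ContDiff

noncomputable section

namespace Crest.Agent.N250.Ra

/-- directional derivative -/
def dd (v : ℝ × ℝ) (g : ℝ × ℝ → ℝ) (q : ℝ × ℝ) : ℝ := fderiv ℝ g q v

/-- `2π`-periodic in the second variable -/
def Per {Y : Type} (g : ℝ × ℝ → Y) : Prop := ∀ s θ, g (s, θ + 2 * Real.pi) = g (s, θ)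

/-- the slice as a complex function -/
def cs (g : ℝ × ℝ → ℝ) (x θ : ℝ) : ℂ := g (x, θ)

/-- the linear part of the equation -/
def Lw (w : ℝ × ℝ → ℝ) (q : ℝ × ℝ) : ℝ :=
  dd (1, 0) (dd (1, 0) w) q - q.1 / 2 * dd (1, 0) w q + w q + dd (0, 1) (dd (0, 1) w) q / 2

variable {g w : ℝ × ℝ → ℝ} {q : ℝ × ℝ} {R : ℝ}

theorem sm_dd (h : ContDiffAt ℝ ∞ g q) (v : ℝ × ℝ) : ContDiffAt ℝ ∞ (dd v g) q :=
  (h.fderiv_right (by simp)).clm_apply contDiffAt_const

theorem norm_dd (h : ContDiffAt ℝ ∞ g q) (v : ℝ × ℝ) (hv : ‖v‖ = 1) (k : ℕ) :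
    ‖iteratedFDeriv ℝ k (dd v g) q‖ ≤ ‖iteratedFDeriv ℝ (k + 1) g q‖ := by
  have h1 := (ContinuousLinearMap.apply ℝ ℝ v).norm_iteratedFDeriv_comp_left
    (h.fderiv_right (m := ∞) (by simp)) (n := k) (by exact_mod_cast le_top)
  rw [norm_iteratedFDeriv_fderiv] at h1
  have h2 : ‖ContinuousLinearMap.apply ℝ ℝ v‖ ≤ 1 :=
    ContinuousLinearMap.opNorm_le_bound _ zero_le_one fun L => by
      simpa [hv] using L.le_opNorm v
  exact h1.trans (mul_le_of_le_one_left (norm_nonneg _) h2)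

theorem abs_dd (h : ContDiffAt ℝ ∞ g q) (v : ℝ × ℝ) (hv : ‖v‖ = 1) :
    |dd v g q| ≤ ‖iteratedFDeriv ℝ 1 g q‖ := by simpa using norm_dd h v hv 0

theorem abs_dd2 (h : ContDiffAt ℝ ∞ g q) (u v : ℝ × ℝ) (hu : ‖u‖ = 1) (hv : ‖v‖ = 1) :
    |dd u (dd v g) q| ≤ ‖iteratedFDeriv ℝ 2 g q‖ := (abs_dd (sm_dd h v) u hu).trans (norm_dd h v hv 1)

theorem n10 : ‖((1, 0) : ℝ × ℝ)‖ = 1 := by simp
theorem n01 : ‖((0, 1) : ℝ × ℝ)‖ = 1 := by simp

theorem Per.fun_eq {Y : Type} {g : ℝ × ℝ → Y} (h : Per g) :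
    (fun z => g (z + (0, 2 * Real.pi))) = g := funext fun z => by
  rw [← h z.1 z.2]; congr 1; ext <;> simp

theorem Per.dd (h : Per g) (v : ℝ × ℝ) : Per (dd v g) := fun s θ => by
  have := fderiv_comp_add_right (𝕜 := ℝ) (f := g) (x := (s, θ)) (0, 2 * Real.pi)
  rw [h.fun_eq] at this
  simp only [Ra.dd, this, Prod.mk_add_mk, add_zero]

theorem Per.jet (h : Per g) (k : ℕ) : Per (iteratedFDeriv ℝ k g) := fun s θ => by
  have := iteratedFDeriv_comp_add_right (𝕜 := ℝ) (f := g) k (0, 2 * Real.pi) (s, θ)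
  rw [h.fun_eq] at this
  simp only [this, Prod.mk_add_mk, add_zero]

theorem Per.cs (h : Per g) (x : ℝ) : Function.Periodic (cs g x) (2 * Real.pi) := fun θ => by
  simp only [Ra.cs, h x θ]

theorem Per.cs0 (h : Per g) (x : ℝ) : Ra.cs g x (2 * Real.pi) = Ra.cs g x 0 := (h.cs x).eq

theorem cs_dx {x θ : ℝ} (h : ContDiffAt ℝ ∞ g (x, θ)) :
    HasDerivAt (fun x => cs g x θ) (cs (dd (1, 0) g) x θ) x :=
  (HasFDerivAt.comp_hasDerivAt x (f := fun x => (x, θ)) (h.differentiableAt (by simp)).hasFDerivAt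
    ((hasDerivAt_id' x).prodMk (hasDerivAt_const x θ))).ofReal_comp

theorem cs_dt {x θ : ℝ} (h : ContDiffAt ℝ ∞ g (x, θ)) :
    HasDerivAt (cs g x) (cs (dd (0, 1) g) x θ) θ :=
  (HasFDerivAt.comp_hasDerivAt θ (f := fun θ => (x, θ)) (h.differentiableAt (by simp)).hasFDerivAt
    ((hasDerivAt_const θ x).prodMk (hasDerivAt_id' θ))).ofReal_comp

/-- smooth on the open half plane -/
def Sm (R : ℝ) (g : ℝ × ℝ → ℝ) : Prop := ∀ q : ℝ × ℝ, R < q.1 → ContDiffAt ℝ ∞ g q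

theorem sm_of (h : ContDiffOn ℝ ∞ g {q | R < q.1}) : Sm R g := fun _ hq =>
  h.contDiffAt ((isOpen_lt continuous_const continuous_fst).mem_nhds hq)

theorem Sm.dd (h : Sm R g) (v : ℝ × ℝ) : Sm R (dd v g) := fun q hq => sm_dd (h q hq) v

theorem Sm.cont (h : Sm R g) {x : ℝ} (hx : R < x) : Continuous (cs g x) :=
  continuous_iff_continuousAt.2 fun θ => (cs_dt (h (x, θ) hx)).continuousAt

theorem Sm.fc_dx (h : Sm R g) {x : ℝ} (hx : R < x) (m : ℤ) :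
    HasDerivAt (fun x => fc (cs g x) m) (fc (cs (Ra.dd (1, 0) g) x) m) x :=
  fc_hasDerivAt isOpen_Ioi hx (fun _ hz => h.cont hz) (fun q hq =>
    (Complex.continuous_ofReal.continuousAt.comp (h.dd (1, 0) q hq.1).continuousAt).continuousWithinAt)
    (fun z hz θ => cs_dx (h (z, θ) hz)) m

theorem Sm.fc_dt (h : Sm R g) (hp : Per g) {x : ℝ} (hx : R < x) (m : ℤ) :
    fc (cs (Ra.dd (0, 1) g) x) m = m * Complex.I * fc (cs g x) m :=
  fc_deriv (hp.cs0 x) (fun θ => cs_dt (h (x, θ) hx)) ((h.dd _).cont hx) m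

theorem Sm.fc_le (h : Sm R g) (hp : Per g) {x M : ℝ} (hx : R < x)
    (h0 : ∀ θ, ‖iteratedFDeriv ℝ 0 g (x, θ)‖ ≤ M) (h2 : ∀ θ, ‖iteratedFDeriv ℝ 2 g (x, θ)‖ ≤ M)
    (m : ℤ) : ‖fc (cs g x) m‖ ≤ 2 * M * maj m :=
  fc_le_maj (hp.cs0 x) ((hp.dd _).cs0 x) (fun θ => cs_dt (h (x, θ) hx))
    (fun θ => cs_dt (h.dd _ (x, θ) hx)) (((h.dd _).dd _).cont hx)
    (fun θ => by simpa [cs] using h0 θ) (fun θ => by
      simpa [cs] using (abs_dd2 (h (x, θ) hx) _ _ n01 n01).trans (h2 θ)) m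

/-- the equation of the modes -/
theorem Sm.mode (h : Sm R w) (hp : Per w) {x : ℝ} (hx : R < x) (m : ℤ) :
    fc (cs (Ra.dd (1, 0) (Ra.dd (1, 0) w)) x) m = (x / 2 : ℝ) * fc (cs (Ra.dd (1, 0) w) x) m +
      ((m : ℝ) ^ 2 / 2 - 1 : ℝ) * fc (cs w x) m + fc (cs (Lw w) x) m := by
  have e : cs (Lw w) x = fun θ => cs (Ra.dd (1, 0) (Ra.dd (1, 0) w)) x θ -
      ((x / 2 : ℝ) : ℂ) * cs (Ra.dd (1, 0) w) x θ + cs w x θ +
        (1 / 2 : ℂ) * cs (Ra.dd (0, 1) (Ra.dd (0, 1) w)) x θ := by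
    funext θ; simp only [cs, Lw]; push_cast; ring
  have c0 := h.cont hx
  have c1 := (h.dd (1, 0)).cont hx
  have c2 := ((h.dd (1, 0)).dd (1, 0)).cont hx
  have c3 := ((h.dd (0, 1)).dd (0, 1)).cont hx
  rw [e, fc_add (by fun_prop) (by fun_prop), fc_add (by fun_prop) c0, fc_sub c2 (by fun_prop), fc_mul,
    fc_mul, (h.dd _).fc_dt (hp.dd _) hx, h.fc_dt hp hx]
  push_cast
  linear_combination (-(m : ℂ) ^ 2 / 2 * fc (cs w x) m) * Complex.I_mul_I

/-- eventually bounded jets of a periodic function are bounded -/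
theorem Sm.bdd (h : Sm R w) (hp : Per w) {a : ℝ} (ha : R < a) (k : ℕ) {s₀ c : ℝ}
    (hb : ∀ q : ℝ × ℝ, s₀ < q.1 → ‖iteratedFDeriv ℝ k w q‖ ≤ c) :
    ∃ C : ℝ, ∀ q : ℝ × ℝ, a ≤ q.1 → ‖iteratedFDeriv ℝ k w q‖ ≤ C := by
  obtain ⟨C, hC⟩ := ((isCompact_Icc (a := a) (b := s₀)).prod
    (isCompact_Icc (a := (0 : ℝ)) (b := 2 * Real.pi))).exists_bound_of_continuousOn
    (f := iteratedFDeriv ℝ k w) fun q hq =>
      ((h q (ha.trans_le hq.1.1)).continuousAt_iteratedFDeriv (by exact_mod_cast le_top)).continuousWithinAt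
  refine ⟨max c C, fun q hq => ?_⟩
  rcases lt_or_ge s₀ q.1 with h1 | h1
  · exact (hb q h1).trans (le_max_left _ _)
  · obtain ⟨θ, hθ, e⟩ := Function.Periodic.exists_mem_Ico₀
      (f := fun θ => iteratedFDeriv ℝ k w (q.1, θ)) (hp.jet k q.1) (by positivity) q.2
    exact (le_of_eq (congrArg norm e)).trans
      ((hC (q.1, θ) ⟨⟨hq, h1⟩, hθ.1, hθ.2.le⟩).trans (le_max_right _ _))

theorem iter {ν : ℝ → ℝ} {a₀ K g g' : ℝ} (ha : 0 < a₀) (hK : 0 < K) (hg : 0 ≤ g') (hgg : g' < g)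
    (h0 : ∀ μ > 0, ∃ a, ∀ x, a ≤ x → ν x ≤ μ)
    (hs : ∀ a, a₀ ≤ a → ∀ μ, 0 < μ → μ ≤ 1 → (∀ x, a ≤ x → ν x ≤ μ) → ∀ x, a ≤ x →
      ν x ≤ μ * a ^ g * x ^ (-g) + K * (μ * √μ)) :
    ∃ C a₁ : ℝ, 0 < C ∧ ∀ x, a₁ ≤ x → ν x ≤ C * x ^ (-g') := by
  set Λ : ℝ := 2 ^ (1 / (g - g')) with hΛ
  have hΛ1 : 1 < Λ := Real.one_lt_rpow (by norm_num) (by have := sub_pos.2 hgg; positivity)
  have hΛ0 : 0 < Λ := by linarith
  set l : ℝ := Λ ^ (-g') with hl
  have hl0 : 0 < l := by positivity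
  have hl1 : l ≤ 1 := Real.rpow_le_one_of_one_le_of_nonpos hΛ1.le (by linarith)
  have e1 : Λ ^ (-g) = l / 2 := by
    have : Λ ^ (g - g') = 2 := by
      rw [hΛ, ← Real.rpow_mul (by norm_num), one_div_mul_cancel (sub_pos.2 hgg).ne', Real.rpow_one]
    rw [hl, ← this, ← Real.rpow_sub hΛ0]; congr 1; ring
  set μ₀ := min 1 ((l / (2 * K)) ^ 2) with hμ
  have hμ0 : 0 < μ₀ := lt_min one_pos (by positivity)
  obtain ⟨a, ha1⟩ := h0 μ₀ hμ0
  set a₁ := max a a₀ with ha₁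
  have ha0 : 0 < a₁ := ha.trans_le (le_max_right _ _)
  have key : ∀ n : ℕ, ∀ x, a₁ * Λ ^ n ≤ x → ν x ≤ μ₀ * l ^ n := by
    intro n
    induction n with
    | zero =>
      intro x hx
      rw [pow_zero, mul_one] at hx ⊢
      exact ha1 x ((le_max_left a a₀).trans hx)
    | succ n ih =>
      intro x hx
      have h1 : 1 ≤ Λ ^ n := one_le_pow₀ hΛ1.le
      have h2 : μ₀ * l ^ n ≤ μ₀ := mul_le_of_le_one_right hμ0.le (pow_le_one₀ hl0.le hl1)
      have h3 : 0 < a₁ * Λ ^ n := by positivity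
      rw [pow_succ, ← mul_assoc] at hx
      have h4 := hs (a₁ * Λ ^ n) ((le_max_right _ _).trans (le_mul_of_one_le_right ha0.le h1))
        (μ₀ * l ^ n) (by positivity) (h2.trans (min_le_left _ _)) ih x
        ((le_mul_of_one_le_right h3.le hΛ1.le).trans hx)
      have h5 : (a₁ * Λ ^ n) ^ g * x ^ (-g) ≤ l / 2 := by
        have := Real.rpow_le_rpow_of_nonpos (by positivity) hx (show -g ≤ 0 by linarith)
        rw [Real.mul_rpow h3.le hΛ0.le, e1] at this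
        refine (mul_le_mul_of_nonneg_left this (by positivity)).trans (le_of_eq ?_)
        rw [← mul_assoc, ← Real.rpow_add h3, add_neg_cancel, Real.rpow_zero, one_mul]
      have h6 : K * √(μ₀ * l ^ n) ≤ l / 2 := by
        have : √(μ₀ * l ^ n) ≤ l / (2 * K) :=
          Real.sqrt_le_iff.2 ⟨by positivity, h2.trans (min_le_right _ _)⟩
        calc K * √(μ₀ * l ^ n) ≤ K * (l / (2 * K)) := by gcongr
          _ = l / 2 := by field_simp
      have h7 : 0 < μ₀ * l ^ n := by positivity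
      rw [pow_succ, ← mul_assoc]
      nlinarith [mul_le_mul_of_nonneg_left h5 h7.le, mul_le_mul_of_nonneg_left h6 h7.le]
  refine ⟨μ₀ * (a₁ * Λ) ^ g', a₁, by positivity, fun x hx => ?_⟩
  obtain ⟨n, h1, h2⟩ := exists_nat_pow_near ((one_le_div ha0).2 hx) hΛ1
  have hx0 : 0 < x := ha0.trans_le hx
  refine (key n x (by rwa [le_div_iff₀' ha0] at h1)).trans ?_
  rw [mul_assoc]
  refine mul_le_mul_of_nonneg_left ?_ hμ0.le
  have h3 : x / (a₁ * Λ) ≤ Λ ^ n := by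
    rw [div_lt_iff₀' ha0, pow_succ] at h2
    rw [div_le_iff₀ (by positivity)]
    nlinarith
  have h4 := Real.rpow_le_rpow_of_nonpos (by positivity) h3 (show -g' ≤ 0 by linarith)
  rw [Real.div_rpow hx0.le (by positivity), Real.rpow_neg (by positivity : 0 ≤ a₁ * Λ),
    div_inv_eq_mul, mul_comm, ← Real.rpow_pow_comm hΛ0.le] at h4
  exact h4

/-- one mode -/
theorem mode_le (h : Sm R w) (hp : Per w) {a g M B : ℝ} (hR : R < a) (ha : 4 ≤ a) (hg : 0 ≤ g)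
    (hga : g * (g + 1) ≤ (1 - g / 2) * a ^ 2)
    (hB : ∀ q : ℝ × ℝ, a ≤ q.1 → |w q| ≤ B ∧ ‖iteratedFDeriv ℝ 1 w q‖ ≤ B)
    (h0 : ∀ δ > 0, ∃ s₀ : ℝ, ∀ q : ℝ × ℝ, s₀ < q.1 → |w q| ≤ δ)
    (hM : ∀ q : ℝ × ℝ, a ≤ q.1 → |Lw w q| ≤ M) (m : ℤ) {x : ℝ} (hx : a ≤ x) :
    ‖fc (cs w x) m‖ ≤ ‖fc (cs w a) m‖ * (a ^ g * x ^ (-g)) + 8 * M * maj m := by
  have hM0 : 0 ≤ M := (abs_nonneg _).trans (hM (a, 0) le_rfl)
  have hy : ∀ z, a ≤ z → HasDerivAt (fun x => fc (cs w x) m) (fc (cs (dd (1, 0) w) z) m) z :=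
    fun z hz => h.fc_dx (hR.trans_le hz) m
  have hy1 := fun z (hz : a ≤ z) => h.mode hp (hR.trans_le hz) m ▸ (h.dd (1, 0)).fc_dx (hR.trans_le hz) m
  have hf : ∀ z, a ≤ z → ‖fc (cs (Lw w) z) m‖ ≤ M := fun z hz =>
    fc_norm_le (fun θ => by simpa [cs] using hM (z, θ) hz) m
  have hpos : 0 ≤ ‖fc (cs w a) m‖ * (a ^ g * x ^ (-g)) := by
    have : 0 < a := by linarith
    have : 0 < x := by linarith
    positivity
  by_cases hm : (m : ℝ) ^ 2 ≤ 1
  · have h1 : m = 0 ∨ m = 1 ∨ m = -1 := by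
      have : m ^ 2 ≤ 1 := by exact_mod_cast hm
      have h1 : m ≤ 1 := by nlinarith
      have h2 : -1 ≤ m := by nlinarith
      omega
    have h2 := low (κ := 1 - (m : ℝ) ^ 2 / 2) (B := B) ha (by
      rcases h1 with rfl | rfl | rfl <;> norm_num) hy
      (fun z hz => (hy1 z hz).congr_deriv (by push_cast; ring))
      (fun z hz => ⟨fc_norm_le (fun θ => by simpa [cs] using (hB (z, θ) hz).1) m,
        fc_norm_le (fun θ => by
          simpa [cs] using (abs_dd (h (z, θ) (hR.trans_le hz)) _ n10).trans (hB (z, θ) hz).2) m⟩) hf hx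
    have h3 : 1 / 2 ≤ maj m := one_div_le_one_div_of_le (by positivity) (by linarith)
    nlinarith
  · have h1 : (4 : ℝ) ≤ (m : ℝ) ^ 2 := by
      have h1 : 1 < m ^ 2 := by exact_mod_cast not_le.1 hm
      have h2 : 4 ≤ m ^ 2 := by
        rcases le_or_gt 2 m with h | h
        · nlinarith
        rcases le_or_gt m (-2) with h' | h'
        · nlinarith
        interval_cases m <;> simp at h1
      exact_mod_cast h2
    have h2 := high (V := (m : ℝ) ^ 2 / 2 - 1) (by linarith) (by linarith) hg hga hy hy1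
      (NormedAddGroup.tendsto_nhds_zero.2 fun ε hε => by
        obtain ⟨s₀, hs⟩ := h0 _ (half_pos hε)
        filter_upwards [eventually_gt_atTop s₀] with z hz
        exact (fc_norm_le (fun θ => by simpa [cs] using hs (z, θ) hz) m).trans_lt (half_lt_self hε))
      hf hx
    have h3 : M / ((m : ℝ) ^ 2 / 2 - 1) ≤ 8 * M * maj m := by
      rw [maj, mul_one_div, div_le_div_iff₀ (by linarith) (by positivity)]
      nlinarith
    rw [← mul_assoc]
    linarith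

/-- **the a priori rate** -/
theorem rate (hw : ContDiffOn ℝ ∞ w {q | R < q.1}) (hp : ∀ s θ, w (s, θ + 2 * Real.pi) = w (s, θ))
    (hlim : ∀ (k : ℕ) (δ : ℝ), 0 < δ → ∃ s₀ : ℝ, ∀ q : ℝ × ℝ, s₀ < q.1 →
      ‖iteratedFDeriv ℝ k w q‖ ≤ δ)
    (heq : ∃ C s₀ : ℝ, ∀ q : ℝ × ℝ, s₀ < q.1 → |Lw w q| ≤
      C * (|w q| + ‖iteratedFDeriv ℝ 1 w q‖ + ‖iteratedFDeriv ℝ 2 w q‖) ^ 2)
    {g : ℝ} (hg0 : 0 ≤ g) (hg : g < 2) (k : ℕ) :
    ∃ C x₀ : ℝ, ∀ q : ℝ × ℝ, x₀ ≤ q.1 → ‖iteratedFDeriv ℝ k w q‖ ≤ C * q.1 ^ (-g) := by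
  have h := sm_of hw
  replace hp : Per w := hp
  obtain ⟨C, s₀, heq⟩ := heq
  set g1 := (g + 2) / 2 with hg1
  set g2 := (g1 + 2) / 2 with hg2
  have hg2' : 0 < 1 - g2 / 2 := by linarith
  set a₀ := max (max R s₀ + 1) (max 4 (6 / (1 - g2 / 2))) with ha₀
  have a1 : R < a₀ := by linarith [le_max_left R s₀, le_max_left (max R s₀ + 1) (max 4 (6 / (1 - g2 / 2)))]
  have a2 : s₀ < a₀ := by linarith [le_max_right R s₀, le_max_left (max R s₀ + 1) (max 4 (6 / (1 - g2 / 2)))]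
  have a3 : 4 ≤ a₀ := (le_max_left _ _).trans (le_max_right _ _)
  have a4 : 6 ≤ a₀ * (1 - g2 / 2) := (div_le_iff₀ hg2').1 ((le_max_right _ _).trans (le_max_right _ _))
  have hb : ∀ j, ∃ C : ℝ, ∀ q : ℝ × ℝ, a₀ ≤ q.1 → ‖iteratedFDeriv ℝ j w q‖ ≤ C := fun j => by
    obtain ⟨s, hs⟩ := hlim j 1 one_pos
    exact h.bdd hp a1 j hs
  have hI := fun (θ : ℝ) (hθ : θ < 1) (j : ℕ) => interp (ContinuousLinearMap.fst ℝ ℝ ℝ) (f := w) (a₀ := a₀)
    (fun q hq => h q (a1.trans_le hq)) hb hθ j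
  simp only [ContinuousLinearMap.coe_fst'] at hI
  have hsum : ∀ x, a₀ ≤ x → Summable fun m => ‖fc (cs w x) m‖ := fun x hx => by
    obtain ⟨C0, h0⟩ := hb 0
    obtain ⟨C2, h2⟩ := hb 2
    exact (summable_maj.mul_left (2 * max C0 C2)).of_nonneg_of_le (fun _ => norm_nonneg _)
      (h.fc_le hp (a1.trans_le hx) (fun θ => (h0 (x, θ) hx).trans (le_max_left _ _))
        fun θ => (h2 (x, θ) hx).trans (le_max_right _ _))
  have hle : ∀ q : ℝ × ℝ, a₀ ≤ q.1 → ‖w q‖ ≤ ∑' m, ‖fc (cs w q.1) m‖ := fun q hq => by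
    simpa [cs] using norm_le_tsum_fc (hp.cs q.1) (h.cont (a1.trans_le hq)) (hsum _ hq) q.2
  set Z := ∑' m, maj m with hZ
  have hZ0 : 0 < Z := summable_maj.tsum_pos (fun m => (maj_pos m).le) 0 (maj_pos 0)
  obtain ⟨C0, c0, hC0⟩ := hI (3 / 4) (by norm_num) 0
  obtain ⟨C1, c1, hC1⟩ := hI (3 / 4) (by norm_num) 1
  obtain ⟨C2, c2, hC2⟩ := hI (3 / 4) (by norm_num) 2
  obtain ⟨C', a₁, hC', hν⟩ := iter (ν := fun x => ∑' m, ‖fc (cs w x) m‖) (a₀ := a₀) (g := g2) (g' := g1)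
    (K := 8 * ((|C| + 1) * (C0 + C1 + C2) ^ 2) * Z) (by linarith) (by positivity) (by linarith)
    (by linarith) (fun μ hμ => by
      obtain ⟨s1, h1⟩ := hlim 0 (μ / (2 * Z)) (by positivity)
      obtain ⟨s2, h2⟩ := hlim 2 (μ / (2 * Z)) (by positivity)
      refine ⟨max a₀ (max s1 s2 + 1), fun x hx => ?_⟩
      have hx0 : a₀ ≤ x := (le_max_left _ _).trans hx
      have hx1 : max s1 s2 < x := by linarith [le_max_right a₀ (max s1 s2 + 1)]
      refine ((hsum x hx0).tsum_le_tsum (h.fc_le hp (a1.trans_le hx0)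
        (fun θ => h1 (x, θ) ((le_max_left _ _).trans_lt hx1))
        fun θ => h2 (x, θ) ((le_max_right _ _).trans_lt hx1)) (summable_maj.mul_left _)).trans ?_
      rw [tsum_mul_left, ← hZ]
      exact le_of_eq (by field_simp))
    fun a ha μ hμ hμ1 hν x hx => by
      have hwμ : ∀ q : ℝ × ℝ, a ≤ q.1 → ‖w q‖ ≤ μ := fun q hq => (hle q (ha.trans hq)).trans (hν _ hq)
      have e : (μ ^ (3 / 4 : ℝ)) ^ 2 = μ * √μ := by
        rw [Real.sqrt_eq_rpow, ← Real.rpow_natCast, ← Real.rpow_mul hμ.le, ← Real.rpow_one_add' hμ.le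
          (by norm_num)]
        norm_num
      obtain ⟨B, hB⟩ := hb 1
      have h1 := fun m => mode_le h hp (a := a) (g := g2) (B := max B μ)
        (M := (|C| + 1) * (C0 + C1 + C2) ^ 2 * (μ * √μ)) (a1.trans_le ha) (a3.trans ha) (by linarith)
        (by
          have h1 : a₀ * 1 ≤ a ^ 2 := by nlinarith
          nlinarith)
        (fun q hq => ⟨(hwμ q hq).trans (le_max_right _ _), (hB q (ha.trans hq)).trans (le_max_left _ _)⟩)
        (fun δ hδ => by simpa using hlim 0 δ hδ) (fun q hq => by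
          have b0 := hC0 a ha μ hμ hμ1 hwμ q hq
          have b1 := hC1 a ha μ hμ hμ1 hwμ q hq
          have b2 := hC2 a ha μ hμ hμ1 hwμ q hq
          rw [norm_iteratedFDeriv_zero, Real.norm_eq_abs] at b0
          refine (heq q (a2.trans_le (ha.trans hq))).trans ?_
          rw [← e, mul_assoc, ← mul_pow]
          exact mul_le_mul (by linarith [le_abs_self C])
            (pow_le_pow_left₀ (by positivity) (by linarith) 2) (by positivity) (by positivity)) m hx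
      refine ((hsum x (ha.trans hx)).tsum_le_tsum h1
        (((hsum a ha).mul_right _).add (summable_maj.mul_left _))).trans ?_
      rw [((hsum a ha).mul_right _).tsum_add (summable_maj.mul_left _), tsum_mul_right, tsum_mul_left,
        ← hZ, mul_assoc μ]
      have : 0 < a := by linarith
      have : 0 < x := by linarith
      exact add_le_add (mul_le_mul_of_nonneg_right (hν a le_rfl) (by positivity)) (le_of_eq (by ring))
  have hg10 : 0 < g1 := by linarith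
  obtain ⟨Ck, ck, hCk⟩ := hI (g / g1) (by rw [div_lt_one hg10]; linarith) k
  obtain ⟨a₂, ha₂⟩ := eventually_atTop.1 (((tendsto_rpow_neg_atTop hg10).const_mul C').eventually
    (gt_mem_nhds (show C' * 0 < 1 by simp)))
  refine ⟨Ck * C' ^ (g / g1), max a₀ (max a₁ a₂), fun q hq => ?_⟩
  simp only [max_le_iff] at hq
  have hq0 : 0 < q.1 := by linarith [hq.1]
  have := hCk q.1 hq.1 (C' * q.1 ^ (-g1)) (by positivity) (ha₂ _ hq.2.2).le (fun z hz =>
    (hle z (hq.1.trans hz)).trans ((hν _ (hq.2.1.trans hz)).trans (mul_le_mul_of_nonneg_left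
      (Real.rpow_le_rpow_of_nonpos hq0 hz (by linarith)) hC'.le))) q le_rfl
  rwa [Real.mul_rpow hC'.le (by positivity), ← Real.rpow_mul hq0.le,
    show -g1 * (g / g1) = -g by field_simp, ← mul_assoc] at this

end Crest.Agent.N250.Ra
end
end

-- ▼ part N250/Ra/End
section

/-!
Row 250 (helper94): the rate on the cylindrical ends of a shrinker, and of its Fourier modes.
-/

set_option autoImplicit false

open Set Filter
open scoped Topology ContDiff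

noncomputable section

namespace Crest.Agent.N250.Ra

open Crest.Agent.N221.Ex

theorem am {a b A B : ℝ} (ha : |a| ≤ A) (hb : |b| ≤ B) : |a * b| ≤ A * B := by
  rw [abs_mul]; exact mul_le_mul ha hb (abs_nonneg _) ((abs_nonneg _).trans ha)

theorem aa {a b A B : ℝ} (ha : |a| ≤ A) (hb : |b| ≤ B) : |a + b| ≤ A + B :=
  (abs_add_le _ _).trans (add_le_add ha hb)

theorem as {a b A B : ℝ} (ha : |a| ≤ A) (hb : |b| ≤ B) : |a - b| ≤ A + B :=
  (abs_sub _ _).trans (add_le_add ha hb)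

/-- the equation is linear up to quadratic terms -/
theorem EL_quad {x v vx vt vxx vxt vtt N : ℝ} (hN : N ≤ 1 / 4) (h0 : |v - 1| ≤ N) (h1 : |vx| ≤ N)
    (h2 : |vt| ≤ N) (h3 : |vxx| ≤ N) (h4 : |vxt| ≤ N) (h5 : |vtt| ≤ N)
    (h : Po.EL x v vx vt vxx vxt vtt = 0) : |vxx - x / 2 * vx + (v - 1) + vtt / 2| ≤ 20 * N ^ 2 := by
  have hv : 3 / 4 ≤ v := by linarith [(abs_le.1 h0).1]
  have hv0 : 0 < v := by linarith
  have hN0 : 0 ≤ N := (abs_nonneg _).trans h0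
  have hQ : 1 ≤ Po.QQ v vx vt := by
    have : 0 ≤ vt ^ 2 / (2 * v) := by positivity
    rw [Po.QQ]; nlinarith [sq_nonneg vx]
  have hu : |v⁻¹| ≤ 2 := by
    rw [abs_of_pos (by positivity), inv_le_comm₀ hv0 two_pos]; linarith
  have hj : |(Po.QQ v vx vt)⁻¹| ≤ 1 := by
    rw [abs_of_pos (by positivity)]; exact inv_le_one_of_one_le₀ hQ
  have b1 : |vx| ≤ 1 / 4 := h1.trans hN
  have b2 : |vt| ≤ 1 / 4 := h2.trans hN
  have b3 : |vxx| ≤ 1 / 4 := h3.trans hN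
  have c : |(1 / 2 : ℝ)| ≤ 1 / 2 := by norm_num
  have e : vxx - x / 2 * vx + (v - 1) + vtt / 2 = 1 / 2 * v⁻¹ * (vtt * (v - 1)) +
      (Po.QQ v vx vt)⁻¹ * (vx * vx + vxx * (vx * vx) + 1 / 2 * v⁻¹ * vx * (vt * vxt) -
        1 / 2 * (1 / 2) * v⁻¹ * v⁻¹ * vx * vx * (vt * vt) + 1 / 2 * v⁻¹ * (vt * vt +
          vx * (vt * vxt) + 1 / 2 * v⁻¹ * vt * (vt * vtt) -
            1 / 2 * (1 / 2) * v⁻¹ * v⁻¹ * vt * vt * (vt * vt))) +
      1 / 2 * (1 / 2) * v⁻¹ * v⁻¹ * (vt * vt) := by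
    rw [← sub_eq_zero, ← h, Po.EL]
    have : Po.QQ v vx vt ≠ 0 := by linarith
    field_simp
    ring
  rw [e]
  refine (aa (aa (am (am c hu) (am h5 h0)) (am hj (aa (as (aa (aa (am h1 h1) (am b3 (am h1 h1)))
    (am (am (am c hu) b1) (am h2 h4))) (am (am (am (am (am (am c c) hu) hu) b1) b1) (am h2 h2)))
    (am (am c hu) (as (aa (aa (am h2 h2) (am b1 (am h2 h4))) (am (am (am c hu) b2) (am h2 h5)))
      (am (am (am (am (am (am c c) hu) hu) b2) b2) (am h2 h2)))))))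
    (am (am (am (am c c) hu) hu) (am h2 h2))).trans ?_
  nlinarith [sq_nonneg N]

variable {r w : ℝ × ℝ → ℝ} {R : ℝ}

/-- the jets of `r² / 2 - 1` tend to zero -/
theorem lim_sq (hr : ContDiffOn ℝ ∞ r {q | R < q.1}) (hp : Per r)
    (hl : ∀ (k : ℕ) (δ : ℝ), 0 < δ → ∃ s₀ : ℝ, ∀ q : ℝ × ℝ, s₀ < q.1 →
      ‖iteratedFDeriv ℝ k (fun q => r q - √2) q‖ ≤ δ) (k : ℕ) (δ : ℝ) (hδ : 0 < δ) :
    ∃ s₀ : ℝ, ∀ q : ℝ × ℝ, s₀ < q.1 → ‖iteratedFDeriv ℝ k (fun q => r q ^ 2 / 2 - 1) q‖ ≤ δ := by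
  have h1 : ContDiffOn ℝ ∞ (fun q => r q - √2) {q | R < q.1} := hr.sub contDiffOn_const
  have h2 : UB (fun _ : Unit => {q : ℝ × ℝ | R + 1 < q.1}) fun _ q => r q - √2 :=
    ⟨fun _ => isOpen_lt continuous_const continuous_fst,
      fun _ => h1.mono fun q (hq : R + 1 < q.1) => show R < q.1 by linarith, fun k => by
      obtain ⟨s, hs⟩ := hl k 1 one_pos
      obtain ⟨C, hC⟩ := (sm_of h1).bdd (fun s θ => by simp only [hp s θ]) (lt_add_one R) k hs
      exact ⟨max C 1, by positivity, fun _ q hq => (hC q (le_of_lt hq)).trans (le_max_left _ _)⟩⟩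
  have h3 := h2.smooth (Φ := fun t : ℝ => (t + √2) ^ 2 / 2 - 1) (by fun_prop)
  simp only [sub_add_cancel] at h3
  obtain ⟨s, hs⟩ := EP.jets_small (f := fun _ : Unit => fun q => r q ^ 2 / 2 - 1)
    (s := fun _ q => q.1) (R := R + 1) (fun _ x z => by
      have := (le_abs_self _).trans (norm_fst_le (x - z))
      rw [Prod.fst_sub] at this
      linarith) (fun i x hx => h3.at (i := i) hx) (fun k => by
      obtain ⟨c, -, hc⟩ := h3.bd k
      exact ⟨c, R + 2, fun i x hx => hc i x (show R + 1 < x.1 by linarith)⟩) (fun ε hε => by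
      obtain ⟨s, hs⟩ := hl 0 (min 1 (ε / 2)) (by positivity)
      refine ⟨s + 1, fun _ x hx => ?_⟩
      have h4 := hs x (by linarith)
      rw [norm_iteratedFDeriv_zero, Real.norm_eq_abs, le_min_iff] at h4
      have h5 : r x ^ 2 / 2 - 1 = (r x - √2) * ((r x - √2) / 2 + √2) := by
        linear_combination (1 / 2) * Real.sq_sqrt (show (0 : ℝ) ≤ 2 by norm_num)
      have h6 : |(r x - √2) / 2 + √2| ≤ 2 := by
        have : √2 < (3 / 2 : ℝ) := (Real.sqrt_lt' (by norm_num)).2 (by norm_num)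
        have := Real.sqrt_nonneg 2
        have := abs_le.1 h4.1
        rw [abs_le]; constructor <;> linarith
      rw [Real.norm_eq_abs, h5]
      linarith [am h4.2 h6]) k δ hδ
  exact ⟨s, fun q hq => hs () q hq.le⟩

theorem dd_sub_one (u : ℝ × ℝ) (v : ℝ × ℝ → ℝ) : dd u (fun q => v q - 1) = dd u v :=
  funext fun q => by simp only [dd, fderiv_sub_const]

/-- the rate for solutions of the polar equation -/
theorem rate_EL {v : ℝ × ℝ → ℝ} (hv : ContDiffOn ℝ ∞ v {q | R < q.1}) (hp : Per v)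
    (hl : ∀ (k : ℕ) (δ : ℝ), 0 < δ → ∃ s₀ : ℝ, ∀ q : ℝ × ℝ, s₀ < q.1 →
      ‖iteratedFDeriv ℝ k (fun q => v q - 1) q‖ ≤ δ)
    (he : ∀ q : ℝ × ℝ, R < q.1 → Po.ELv v q = 0) {g : ℝ} (hg0 : 0 ≤ g) (hg : g < 2) (k : ℕ) :
    ∃ C x₀ : ℝ, ∀ q : ℝ × ℝ, x₀ ≤ q.1 →
      ‖iteratedFDeriv ℝ k (fun q => v q - 1) q‖ ≤ C * q.1 ^ (-g) := by
  have hw : ContDiffOn ℝ ∞ (fun q => v q - 1) {q | R < q.1} := hv.sub contDiffOn_const
  refine rate hw (fun s θ => by simp only [hp s θ]) hl ?_ hg0 hg k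
  obtain ⟨s0, h0⟩ := hl 0 (1 / 12) (by norm_num)
  obtain ⟨s1, h1⟩ := hl 1 (1 / 12) (by norm_num)
  obtain ⟨s2, h2⟩ := hl 2 (1 / 12) (by norm_num)
  refine ⟨20, max (max R s0) (max s1 s2), fun q hq => ?_⟩
  simp only [max_lt_iff] at hq
  have a := sm_of hw q hq.1.1
  have b0 := h0 q hq.1.2
  rw [norm_iteratedFDeriv_zero, Real.norm_eq_abs] at b0
  have c1 := fun u hu => abs_dd a u hu
  have c2 := fun u u' hu hu' => abs_dd2 a u u' hu hu'
  simp only [dd_sub_one] at c1 c2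
  have n0 := abs_nonneg (v q - 1)
  have n1 := norm_nonneg (iteratedFDeriv ℝ 1 (fun q => v q - 1) q)
  have n2 := norm_nonneg (iteratedFDeriv ℝ 2 (fun q => v q - 1) q)
  simp only [Lw, dd_sub_one]
  exact EL_quad (vt := dd (0, 1) v q) (vxt := dd (1, 0) (dd (0, 1) v) q) (by linarith [h1 q hq.2.1, h2 q hq.2.2]) (by linarith) (by linarith [c1 _ n10])
    (by linarith [c1 _ n01]) (by linarith [c2 _ _ n10 n10]) (by linarith [c2 _ _ n10 n01])
    (by linarith [c2 _ _ n01 n01]) (he q hq.1.1)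

/-- **the rate on the ends of a shrinker** -/
theorem ends_rate {S : Mv} (hS : S.IsShr) (e : Ends S) (j : Fin e.p) {g : ℝ} (hg0 : 0 ≤ g)
    (hg : g < 2) (k : ℕ) : ∃ C x₀ : ℝ, ∀ q : ℝ × ℝ, x₀ ≤ q.1 →
      ‖iteratedFDeriv ℝ k (fun q => e.r j q ^ 2 / 2 - 1) q‖ ≤ C * q.1 ^ (-g) :=
  rate_EL (v := fun q => e.r j q ^ 2 / 2) (((e.sm j).pow 2).div_const 2)
    (fun s θ => by simp only [e.per j s θ]) (lim_sq (e.sm j) (e.per j) (e.lim j))
    (fun _ hq => Po.ends_EL hS e j hq) hg0 hg k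


/-- decay of the Fourier coefficients -/
theorem Sm.fc_decay {x M : ℝ} (hx : R < x) (m : ℤ) (k : ℕ) : ∀ {w : ℝ × ℝ → ℝ}, Sm R w → Per w →
    (∀ j ≤ k, ∀ θ, ‖iteratedFDeriv ℝ j w (x, θ)‖ ≤ M) →
    (1 + |(m : ℝ)|) ^ k * ‖fc (cs w x) m‖ ≤ 2 ^ k * M := by
  induction k with
  | zero =>
    intro w _ _ hM
    simpa using fc_norm_le (fun θ => by simpa [cs] using hM 0 le_rfl θ) m
  | succ k ih =>
    intro w h hp hM
    have h1 := ih h hp fun j hj => hM j (by omega)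
    have h2 := ih (h.dd (0, 1)) (hp.dd _) fun j hj θ =>
      (norm_dd (h (x, θ) hx) _ n01 j).trans (hM (j + 1) (by omega) θ)
    rw [h.fc_dt hp hx, norm_mul, norm_mul, Complex.norm_I, mul_one, Complex.norm_intCast] at h2
    rw [pow_succ, pow_succ]
    nlinarith

end Crest.Agent.N250.Ra
end
end

-- ▼ part N250/Ra/Dx
section

/-!
Row 250 (helper94): the `x`-derivative gains one more power of `x`.
-/

set_option autoImplicit false

open Set Filter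
open scoped Topology ContDiff

noncomputable section

namespace Crest.Agent.N250.Ra

variable {f w : ℝ × ℝ → ℝ} {q : ℝ × ℝ} {R : ℝ}

theorem jet_fst (k : ℕ) (q : ℝ × ℝ) :
    ‖iteratedFDeriv ℝ k (fun q : ℝ × ℝ => q.1) q‖ ≤ if k = 0 then |q.1| else 1 := by
  rcases k with _ | k
  · simp
  rw [if_neg (Nat.succ_ne_zero k), ← norm_iteratedFDeriv_fderiv,
    show fderiv ℝ (fun q : ℝ × ℝ => q.1) = fun _ => ContinuousLinearMap.fst ℝ ℝ ℝ from
      funext fun _ => fderiv_fst]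
  rcases eq_or_ne k 0 with rfl | hk
  · rw [norm_iteratedFDeriv_zero]; exact ContinuousLinearMap.norm_fst_le ..
  · rw [iteratedFDeriv_const_of_ne hk]; simp

/-- Leibniz rule for the factor `x` -/
theorem jet_x_mul (h : Sm R f) (hq : R < q.1) (h1 : 1 ≤ q.1) (k : ℕ) {M : ℝ}
    (hM : ∀ i ≤ k, ‖iteratedFDeriv ℝ i f q‖ ≤ M) :
    ‖iteratedFDeriv ℝ k (fun q => q.1 * f q) q‖ ≤ 2 ^ k * (q.1 * M) := by
  have ho : IsOpen {q : ℝ × ℝ | R < q.1} := isOpen_lt continuous_const continuous_fst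
  have h2 := norm_iteratedFDerivWithin_mul_le (𝕜 := ℝ) (f := fun q : ℝ × ℝ => q.1) (g := f) (N := ∞)
    (s := {q : ℝ × ℝ | R < q.1})
    contDiffOn_fst (fun z hz => (h z hz).contDiffWithinAt) ho.uniqueDiffOn hq (n := k)
    (by exact_mod_cast le_top)
  have e : ∀ (i : ℕ) (u : ℝ × ℝ → ℝ), iteratedFDerivWithin ℝ i u {q : ℝ × ℝ | R < q.1} q =
      iteratedFDeriv ℝ i u q := fun i u => iteratedFDerivWithin_of_isOpen i ho hq
  simp only [e] at h2
  refine h2.trans ?_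
  have h3 : ((2 : ℝ)) ^ k = ∑ i ∈ Finset.range (k + 1), (k.choose i : ℝ) := by
    exact_mod_cast (Nat.sum_range_choose k).symm
  rw [h3, Finset.sum_mul]
  refine Finset.sum_le_sum fun i _ => ?_
  rw [mul_assoc]
  refine mul_le_mul_of_nonneg_left (mul_le_mul ((jet_fst i q).trans ?_) (hM _ (Nat.sub_le _ _))
    (norm_nonneg _) (by linarith)) (by positivity)
  split_ifs
  · rw [abs_of_nonneg (by linarith)]
  · exact h1

/-- all orders up to `k` at once -/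
theorem upto {g : ℝ} (h : ∀ k : ℕ, ∃ C x₀ : ℝ, ∀ q : ℝ × ℝ, x₀ ≤ q.1 →
      ‖iteratedFDeriv ℝ k w q‖ ≤ C * q.1 ^ (-g)) (R : ℝ) (k : ℕ) :
    ∃ C x₀ : ℝ, 0 < C ∧ 1 ≤ x₀ ∧ R < x₀ ∧ ∀ i ≤ k, ∀ q : ℝ × ℝ, x₀ ≤ q.1 →
      ‖iteratedFDeriv ℝ i w q‖ ≤ C * q.1 ^ (-g) := by
  choose C x₀ hC using h
  refine ⟨1 + ∑ i ∈ Finset.range (k + 1), |C i|, max 1 (R + 1) + ∑ i ∈ Finset.range (k + 1), |x₀ i|,
    by positivity, le_add_of_le_of_nonneg (le_max_left _ _) (by positivity),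
    lt_add_of_lt_of_nonneg (lt_max_of_lt_right (lt_add_one R)) (by positivity), fun i hi q hq => ?_⟩
  have h1 := Finset.single_le_sum (f := fun i => |C i|) (fun i _ => abs_nonneg _)
    (Finset.mem_range.2 (Nat.lt_succ_of_le hi))
  have h2 := Finset.single_le_sum (f := fun i => |x₀ i|) (fun i _ => abs_nonneg _)
    (Finset.mem_range.2 (Nat.lt_succ_of_le hi))
  have h3 := le_max_left 1 (R + 1)
  have h4 : 0 < q.1 := by linarith [abs_nonneg (x₀ i)]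
  exact (hC i q (by linarith [le_abs_self (x₀ i)])).trans
    (mul_le_mul_of_nonneg_right (by linarith [le_abs_self (C i)]) (by positivity))

/-- the jets of `x w_x` decay at the same rate as those of `w` -/
theorem rate_dx (h : Sm R w) (hp : Per w)
    (hr : ∀ g : ℝ, 0 ≤ g → g < 2 → ∀ k : ℕ, ∃ C x₀ : ℝ, ∀ q : ℝ × ℝ, x₀ ≤ q.1 →
      ‖iteratedFDeriv ℝ k w q‖ ≤ C * q.1 ^ (-g))
    (heq : ∃ C s₀ : ℝ, ∀ q : ℝ × ℝ, s₀ < q.1 → |Lw w q| ≤
      C * (|w q| + ‖iteratedFDeriv ℝ 1 w q‖ + ‖iteratedFDeriv ℝ 2 w q‖))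
    {g : ℝ} (hg0 : 0 ≤ g) (hg : g < 2) (k : ℕ) : ∃ C x₀ : ℝ, ∀ q : ℝ × ℝ, x₀ ≤ q.1 →
      ‖iteratedFDeriv ℝ k (fun q => q.1 * dd (1, 0) w q) q‖ ≤ C * q.1 ^ (-g) := by
  have hs : Sm R fun q => q.1 * dd (1, 0) w q := fun q hq => contDiffAt_fst.mul (h.dd _ q hq)
  have hp' : Per fun q : ℝ × ℝ => q.1 * dd (1, 0) w q := fun s θ => by simp only [hp.dd _ s θ]
  have hb : ∀ j, ∃ C : ℝ, ∀ q : ℝ × ℝ, R + 1 ≤ q.1 →
      ‖iteratedFDeriv ℝ j (fun q => q.1 * dd (1, 0) w q) q‖ ≤ C := fun j => by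
    obtain ⟨C, x₀, h0, h1, h2, hC⟩ := upto (hr 1 zero_le_one (by norm_num)) R (j + 1)
    refine hs.bdd hp' (lt_add_one R) j (s₀ := x₀) (c := 2 ^ j * C) fun q hq => ?_
    have h3 : 0 < q.1 := by linarith
    refine (jet_x_mul (h.dd _) (h2.trans hq) (h1.trans hq.le) j fun i hi =>
      (norm_dd (h q (h2.trans hq)) _ n10 i).trans (hC (i + 1) (by omega) q hq.le)).trans (le_of_eq ?_)
    rw [Real.rpow_neg_one]; field_simp
  set g1 := (g + 2) / 2 with hg1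
  have hg10 : 0 < g1 := by linarith
  obtain ⟨Ck, ck, hCk⟩ := interp (ContinuousLinearMap.fst ℝ ℝ ℝ) (a₀ := R + 1)
    (fun q hq => hs q ((lt_add_one R).trans_le hq)) hb (θ := g / g1) (by rw [div_lt_one hg10]; linarith) k
  simp only [ContinuousLinearMap.coe_fst'] at hCk
  obtain ⟨C, x₀, h0, h1, h2, hC⟩ := upto (hr g1 hg10.le (by linarith)) (R + 1) 2
  obtain ⟨C', s₀, heq⟩ := heq
  set K := (6 + 6 * |C'|) * C with hK
  have hK0 : 0 < K := by positivity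
  have hv : ∀ q : ℝ × ℝ, x₀ ≤ q.1 → s₀ < q.1 → ‖q.1 * dd (1, 0) w q‖ ≤ K * q.1 ^ (-g1) := fun q a1 a2 => by
    have a := h q (by linarith)
    have b0 := hC 0 (by omega) q a1
    have b1 := hC 1 (by omega) q a1
    have b2 := hC 2 le_rfl q a1
    rw [norm_iteratedFDeriv_zero, Real.norm_eq_abs] at b0
    have c1 := abs_le.1 ((abs_dd2 a _ _ n10 n10).trans b2)
    have c2 := abs_le.1 ((abs_dd2 a _ _ n01 n01).trans b2)
    have c3 := abs_le.1 ((heq q a2).trans (mul_le_mul (le_abs_self C')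
      (add_le_add (add_le_add b0 b1) b2) (by positivity) (abs_nonneg _)))
    have c0 := abs_le.1 b0
    have c4 : 0 ≤ C * q.1 ^ (-g1) := (abs_nonneg _).trans b0
    rw [Lw] at c3
    rw [Real.norm_eq_abs, hK, mul_assoc, abs_le]
    constructor <;> nlinarith
  obtain ⟨a₂, ha₂⟩ := eventually_atTop.1 (((tendsto_rpow_neg_atTop hg10).const_mul K).eventually
    (gt_mem_nhds (show K * 0 < 1 by simp)))
  refine ⟨Ck * K ^ (g / g1), max x₀ (max (s₀ + 1) a₂), fun q hq => ?_⟩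
  simp only [max_le_iff] at hq
  have hq0 : 0 < q.1 := by linarith [hq.1]
  have := hCk q.1 (by linarith [hq.1]) (K * q.1 ^ (-g1)) (by positivity) (ha₂ _ hq.2.2).le (fun z hz =>
    (hv z (hq.1.trans hz) (by linarith [hq.2.1])).trans (mul_le_mul_of_nonneg_left
      (Real.rpow_le_rpow_of_nonpos hq0 hz (by linarith)) hK0.le)) q le_rfl
  rwa [Real.mul_rpow hK0.le (by positivity), ← Real.rpow_mul hq0.le,
    show -g1 * (g / g1) = -g by field_simp, ← mul_assoc] at this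

/-- `w = r² / 2 - 1` on the end `j` -/
def wE {S : Mv} (e : Ends S) (j : Fin e.p) (q : ℝ × ℝ) : ℝ := e.r j q ^ 2 / 2 - 1

variable {S : Mv}

theorem sm_wE (e : Ends S) (j : Fin e.p) : Sm e.R (wE e j) :=
  sm_of ((((e.sm j).pow 2).div_const 2).sub contDiffOn_const)

theorem per_wE (e : Ends S) (j : Fin e.p) : Per (wE e j) := fun s θ => by simp only [wE, e.per j s θ]

theorem quad_wE (hS : S.IsShr) (e : Ends S) (j : Fin e.p) {q : ℝ × ℝ} (hq : e.R < q.1) {N : ℝ}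
    (hN : N ≤ 1 / 4) (h : ∀ i ≤ 2, ‖iteratedFDeriv ℝ i (wE e j) q‖ ≤ N) :
    |Lw (wE e j) q| ≤ 20 * N ^ 2 := by
  have a := sm_wE e j q hq
  have b0 := h 0 (by omega)
  rw [norm_iteratedFDeriv_zero, Real.norm_eq_abs] at b0
  have c1 := fun u hu => (abs_dd a u hu).trans (h 1 (by omega))
  have c2 := fun u u' hu hu' => (abs_dd2 a u u' hu hu').trans (h 2 le_rfl)
  have e1 : ∀ u, dd u (wE e j) = dd u fun q => e.r j q ^ 2 / 2 := fun u => dd_sub_one u _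
  simp only [Lw, e1] at c1 c2 ⊢
  exact EL_quad (vt := dd (0, 1) _ q) (vxt := dd (1, 0) (dd (0, 1) _) q) hN b0 (c1 _ n10) (c1 _ n01)
    (c2 _ _ n10 n10) (c2 _ _ n10 n01) (c2 _ _ n01 n01) (Po.ends_EL hS e j hq)

/-- **rates on the ends of a shrinker**: `w` and `x w_x` -/
theorem ends_rate2 (hS : S.IsShr) (e : Ends S) (j : Fin e.p) {g : ℝ} (hg0 : 0 ≤ g) (hg : g < 2)
    (k : ℕ) : ∃ C x₀ : ℝ, 0 < C ∧ 1 ≤ x₀ ∧ e.R < x₀ ∧ ∀ i ≤ k, ∀ q : ℝ × ℝ, x₀ ≤ q.1 →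
      ‖iteratedFDeriv ℝ i (wE e j) q‖ ≤ C * q.1 ^ (-g) ∧
      ‖iteratedFDeriv ℝ i (fun q => q.1 * dd (1, 0) (wE e j) q) q‖ ≤ C * q.1 ^ (-g) := by
  have hr : ∀ g : ℝ, 0 ≤ g → g < 2 → ∀ k : ℕ, ∃ C x₀ : ℝ, ∀ q : ℝ × ℝ, x₀ ≤ q.1 →
      ‖iteratedFDeriv ℝ k (wE e j) q‖ ≤ C * q.1 ^ (-g) := fun g a b k => ends_rate hS e j a b k
  obtain ⟨C, x₀, h0, h1, h2, hC⟩ := upto (hr g hg0 hg) e.R k
  obtain ⟨C', x₁, a0, a1, a2, hC'⟩ := upto (rate_dx (sm_wE e j) (per_wE e j) hr (by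
    obtain ⟨s0, h0⟩ := lim_sq (e.sm j) (e.per j) (e.lim j) 0 (1 / 12) (by norm_num)
    obtain ⟨s1, h1⟩ := lim_sq (e.sm j) (e.per j) (e.lim j) 1 (1 / 12) (by norm_num)
    obtain ⟨s2, h2⟩ := lim_sq (e.sm j) (e.per j) (e.lim j) 2 (1 / 12) (by norm_num)
    refine ⟨5, max (max e.R s0) (max s1 s2), fun q hq => ?_⟩
    simp only [max_lt_iff] at hq
    have b0 : ‖iteratedFDeriv ℝ 0 (wE e j) q‖ ≤ 1 / 12 := h0 q hq.1.2
    have b1 : ‖iteratedFDeriv ℝ 1 (wE e j) q‖ ≤ 1 / 12 := h1 q hq.2.1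
    have b2 : ‖iteratedFDeriv ℝ 2 (wE e j) q‖ ≤ 1 / 12 := h2 q hq.2.2
    have n0 := norm_nonneg (iteratedFDeriv ℝ 0 (wE e j) q)
    have n1 := norm_nonneg (iteratedFDeriv ℝ 1 (wE e j) q)
    have n2 := norm_nonneg (iteratedFDeriv ℝ 2 (wE e j) q)
    have := quad_wE hS e j hq.1.1 (N := ‖iteratedFDeriv ℝ 0 (wE e j) q‖ +
      ‖iteratedFDeriv ℝ 1 (wE e j) q‖ + ‖iteratedFDeriv ℝ 2 (wE e j) q‖) (by linarith) fun i hi => by
        interval_cases i <;> linarith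
    rw [← Real.norm_eq_abs (wE e j q), ← norm_iteratedFDeriv_zero (𝕜 := ℝ) (f := wE e j)]
    nlinarith) hg0 hg) e.R k
  refine ⟨max C C', max x₀ x₁, by positivity, h1.trans (le_max_left _ _), h2.trans_le (le_max_left _ _),
    fun i hi q hq => ?_⟩
  simp only [max_le_iff] at hq
  have : 0 < q.1 := by linarith [hq.1]
  exact ⟨(hC i hi q hq.1).trans (mul_le_mul_of_nonneg_right (le_max_left _ _) (by positivity)),
    (hC' i hi q hq.2).trans (mul_le_mul_of_nonneg_right (le_max_right _ _) (by positivity))⟩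

end Crest.Agent.N250.Ra
end
end

-- ▼ part N250/S9/Mem
section

/-!
Row 250 (helper94): a decaying solution on a half cylinder as a jet of the end solver.
-/

set_option autoImplicit false
open Set Complex Metric

noncomputable section

namespace Crest.Agent.N250.S9

open B1 Ra

/-- the six jets -/
def jw (w : ℝ × ℝ → ℝ) : Fin 6 → ℝ × ℝ → ℝ :=
  ![w, dd (1, 0) w, dd (1, 0) (dd (1, 0) w), dd (0, 1) w, dd (1, 0) (dd (0, 1) w),
    dd (0, 1) (dd (0, 1) w)]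

/-- `v = 1 + w` solves the equation and decays -/
structure Rt (w : ℝ × ℝ → ℝ) (x₀ C γ : ℝ) : Prop where
  sm : Sm x₀ w
  per : Per w
  C0 : 0 ≤ C
  γ0 : 0 ≤ γ
  j0 : ∀ i ≤ 4, ∀ q : ℝ × ℝ, x₀ < q.1 → ‖iteratedFDeriv ℝ i w q‖ ≤ C * q.1 ^ (-γ)
  j1 : ∀ i ≤ 4, ∀ q : ℝ × ℝ, x₀ < q.1 →
    ‖iteratedFDeriv ℝ i (fun q : ℝ × ℝ => q.1 * dd (1, 0) w q) q‖ ≤ C * q.1 ^ (-γ)
  eq : ∀ q : ℝ × ℝ, x₀ < q.1 →
    Po.EL q.1 (1 + w q) (jw w 1 q) (jw w 3 q) (jw w 2 q) (jw w 4 q) (jw w 5 q) = 0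

variable {w f : ℝ × ℝ → ℝ} {x₀ C γ x R X M K g g' : ℝ}

theorem decay (hf : Sm x₀ f) (hp : Per f) (hx : x₀ < x) (k : ℕ)
    (h : ∀ j ≤ k + 2, ∀ θ, ‖iteratedFDeriv ℝ j f (x, θ)‖ ≤ M) (m : ℤ) :
    (1 + |(m : ℝ)|) ^ k * ‖fc (cs f x) m‖ ≤ 2 ^ (k + 2) * M * maj m := by
  have h1 := Sm.fc_decay hx m (k + 2) hf hp h
  have h2 : 1 + (m : ℝ) ^ 2 ≤ (1 + |(m : ℝ)|) ^ 2 := by nlinarith [abs_nonneg (m : ℝ), sq_abs (m : ℝ)]
  rw [maj, mul_one_div, le_div_iff₀ (by positivity)]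
  refine le_trans ?_ h1
  rw [pow_add, mul_right_comm]
  gcongr

theorem maj_zero : maj 0 = 1 := by simp [maj]

/-- the jets of `(x² - 2) / 2` -/
def pj (x : ℂ) : Fin 6 → ℂ := ![(x ^ 2 - 2) / 2, x, 1, 0, 0, 0]

theorem pj_le (hx : 2 ≤ x) (i : Fin 6) : ‖pj x i‖ ≤ x ^ 2 := by
  fin_cases i <;> simp [pj]
  · have e : (x : ℂ) ^ 2 - 2 = ((x ^ 2 - 2 : ℝ) : ℂ) := by push_cast; ring
    rw [e, norm_real, Real.norm_of_nonneg (by nlinarith)]; nlinarith
  · rw [abs_of_nonneg (by linarith)]; nlinarith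
  · exact le_trans (by linarith) (le_abs_self x)
  all_goals positivity

theorem vj_eq {ℓ : Ell} (X a : ℂ) (J : Jt ℓ) (s : II) (θ : ℝ) (i : Fin 6) :
    vj R X a J s θ i = (if i = 0 then 1 else 0) + a * pj (gam R X s) i + val (J i) s θ := by
  fin_cases i <;> simp [vj, pj, et]
  ring

/-- the far parameter -/
def aS (w : ℝ × ℝ → ℝ) (X : ℝ) : ℂ := fc (cs w X) 0 / (((X : ℂ) ^ 2 - 2) / 2)

/-- the coefficients of the jet -/
def cf (w : ℝ × ℝ → ℝ) (X : ℝ) (i : Fin 6) (m : ℤ) (x : ℝ) : ℂ :=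
  fc (cs (jw w i) x) m - if m = 0 then aS w X * pj x i else 0

theorem cf_ne {m : ℤ} (hm : m ≠ 0) (i : Fin 6) : cf w X i m x = fc (cs (jw w i) x) m := by
  simp [cf, hm]

namespace Rt

variable (h : Rt w x₀ C γ)
include h

theorem sm_jw (i : Fin 6) : Sm x₀ (jw w i) := by
  fin_cases i
  exacts [h.sm, h.sm.dd _, (h.sm.dd _).dd _, h.sm.dd _, (h.sm.dd _).dd _, (h.sm.dd _).dd _]

theorem per_jw (i : Fin 6) : Per (jw w i) := by
  fin_cases i
  exacts [h.per, h.per.dd _, (h.per.dd _).dd _, h.per.dd _, (h.per.dd _).dd _, (h.per.dd _).dd _]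

theorem jw_le (i : Fin 6) {j : ℕ} (hj : j ≤ 2) {q : ℝ × ℝ} (hq : x₀ < q.1) :
    ‖iteratedFDeriv ℝ j (jw w i) q‖ ≤ C * q.1 ^ (-γ) := by
  have a := h.sm q hq
  have k1 := fun u hu => (norm_dd a u hu j).trans (h.j0 _ (by omega) q hq)
  have k2 := fun u v hu hv => ((norm_dd (sm_dd a v) u hu j).trans (norm_dd a v hv _)).trans
    (h.j0 _ (by omega) q hq)
  fin_cases i
  exacts [h.j0 _ (by omega) q hq, k1 _ n10, k2 _ _ n10 n10, k1 _ n01, k2 _ _ n10 n01, k2 _ _ n01 n01]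

theorem m0 (hx : x₀ < x) (i : Fin 6) (m : ℤ) :
    ‖fc (cs (jw w i) x) m‖ ≤ 4 * (C * x ^ (-γ)) * maj m := by
  have := decay (M := C * x ^ (-γ)) (h.sm_jw i) (h.per_jw i) hx 0 (fun j hj θ => h.jw_le i hj (q := (x, θ)) hx) m
  norm_num at this ⊢; exact this

theorem m1 (hx : x₀ < x) (h0 : 0 ≤ x) (m : ℤ) :
    x * ((1 + |(m : ℝ)|) * ‖fc (cs (jw w 1) x) m‖) ≤ 8 * (C * x ^ (-γ)) * maj m := by
  have := decay (M := C * x ^ (-γ)) (f := fun q : ℝ × ℝ => q.1 * dd (1, 0) w q)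
    (fun q hq => contDiffAt_fst.mul (h.sm.dd _ q hq))
    (fun s θ => by simp only [h.per.dd (1, 0) s θ]) hx 1
    (fun j hj θ => h.j1 j (by omega) (x, θ) hx) m
  have e : cs (fun q : ℝ × ℝ => q.1 * dd (1, 0) w q) x = fun θ => (x : ℂ) * cs (jw w 1) x θ := by
    funext θ; simp [cs, jw]
  rw [e, fc_mul, norm_mul, norm_real, Real.norm_of_nonneg h0] at this
  norm_num at this ⊢; linarith

theorem m2 (hx : x₀ < x) (m : ℤ) :
    (1 + |(m : ℝ)|) ^ 2 * ‖fc (cs w x) m‖ ≤ 16 * (C * x ^ (-γ)) * maj m := by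
  have := decay (M := C * x ^ (-γ)) h.sm h.per hx 2 (fun j hj θ => h.j0 j hj (x, θ) hx) m
  norm_num at this ⊢; exact this

theorem aS_le (hX : x₀ < X) (h2 : 2 ≤ X) : ‖aS w X‖ * X ^ 2 ≤ 16 * (C * X ^ (-γ)) := by
  have h1 := h.m0 hX 0 0
  have e : ((X : ℂ) ^ 2 - 2) / 2 = (((X ^ 2 - 2) / 2 : ℝ) : ℂ) := by push_cast; ring
  have h3 : 0 < (X ^ 2 - 2) / 2 := by nlinarith
  rw [maj_zero, mul_one] at h1
  rw [aS, e, norm_div, norm_real, Real.norm_of_nonneg h3.le, div_mul_eq_mul_div, div_le_iff₀ h3]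
  have h4 : 0 ≤ C * X ^ (-γ) := by have := h.C0; positivity
  have h5 : ‖fc (cs w X) 0‖ * X ^ 2 ≤ 4 * (C * X ^ (-γ)) * X ^ 2 :=
    mul_le_mul_of_nonneg_right h1 (by positivity)
  nlinarith [mul_nonneg h4 (show 0 ≤ X ^ 2 - 4 by nlinarith)]

theorem pw_le (hx : 1 ≤ x) : C * x ^ (-γ) ≤ C :=
  mul_le_of_le_one_right h.C0 (Real.rpow_le_one_of_one_le_of_nonpos hx (by linarith [h.γ0]))

theorem d0 (hx : x₀ < x) (m : ℤ) : HasDerivAt (cf w X 0 m) (cf w X 1 m x) x := by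
  refine (h.sm.fc_dx hx m).sub ?_
  split_ifs
  · have := (((hasDerivAt_pow 2 (x : ℂ)).sub_const 2).div_const 2).comp_ofReal.const_mul (aS w X)
    simpa [pj] using this
  · exact hasDerivAt_const _ _

theorem d1 (hx : x₀ < x) (m : ℤ) : HasDerivAt (cf w X 1 m) (cf w X 2 m x) x := by
  refine ((h.sm.dd _).fc_dx hx m).sub ?_
  split_ifs
  · simpa [pj] using (hasDerivAt_id (x : ℂ)).comp_ofReal.const_mul (aS w X)
  · exact hasDerivAt_const _ _

theorem cont (hR : x₀ < R) (i : Fin 6) (m : ℤ) : ContinuousOn (cf w X i m) (Icc R X) := fun x hx => by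
  refine (((h.sm_jw i).fc_dx (hR.trans_le hx.1) m).continuousAt.sub ?_).continuousWithinAt
  split_ifs
  · fin_cases i <;> simp only [pj] <;> simp <;> fun_prop
  · exact continuousAt_const

theorem cf_crude (hR : x₀ < R) (h2 : 2 ≤ R) (hx : x ∈ Icc R X) (i : Fin 6) (m : ℤ) :
    ‖cf w X i m x‖ ≤ (4 * C + ‖aS w X‖ * X ^ 2) * maj m := by
  have h1 := h.m0 (hR.trans_le hx.1) i m
  have h3 := h.pw_le (x := x) (by linarith [hx.1])
  have h4 := maj_pos m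
  refine (norm_sub_le _ _).trans ?_
  rw [add_mul]
  refine add_le_add (h1.trans (by gcongr)) ?_
  split_ifs with hm
  · rw [hm, maj_zero, mul_one, norm_mul]
    exact mul_le_mul_of_nonneg_left ((pj_le (h2.trans hx.1) i).trans
      (pow_le_pow_left₀ (by linarith [hx.1]) hx.2 2)) (norm_nonneg _)
  · rw [norm_zero]; positivity

theorem exists_J (hR : x₀ < R) (h2 : 2 ≤ R) (hX : R + 2 ≤ X) :
    ∃ J : Jt Ell.triv, ∀ i m s, Wi.co (J i) m s = cf w X i m (xr R X s) := by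
  refine ⟨fun i => Wi.mk _ (fun m => cx hX _ (h.cont hR i m)) ?_, fun i m s => by simp⟩
  refine .of_nonneg_of_le (fun _ => norm_nonneg _) (fun m => ?_)
    (summable_maj.mul_left (4 * C + ‖aS w X‖ * X ^ 2))
  have := h.C0
  have := maj_pos m
  refine (ContinuousMap.norm_le _ (by positivity)).2 fun s => ?_
  rw [norm_w_mul]
  simpa [Ell.triv] using h.cf_crude hR h2 (xr_mem' hX s) i m

theorem far_le (hX : x₀ < X) (h2 : 2 ≤ X) {m : ℤ} (hm : m ≠ 0) :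
    ‖(omF Ell.triv).w m * cf w X 1 m X‖ ≤ 8 * (C * X ^ (-γ)) / X * maj m := by
  rw [cf_ne hm, omF_w, norm_mul, norm_real, Real.norm_of_nonneg (by positivity), div_mul_eq_mul_div,
    le_div_iff₀ (by linarith), mul_comm]
  simpa [Ell.triv] using h.m1 hX (by linarith) m

theorem exists_H (hX : x₀ < X) (h2 : 2 ≤ X) :
    ∃ H : Wi (omF Ell.triv), ∀ m, Wi.co H m = cf w X 1 m X := by
  refine ⟨Wi.mk _ (fun m => cf w X 1 m X) ?_, fun m => Wi.co_mk _ _ _⟩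
  refine .of_norm_bounded_eventually (summable_maj.mul_left (8 * (C * X ^ (-γ)) / X)) ?_
  filter_upwards [Filter.eventually_cofinite_ne 0] with m hm
  rw [norm_norm]; exact h.far_le hX h2 hm


theorem b_le (hR : x₀ < R) {b : Wi (omP 2)} (hb : ∀ m, Wi.co b m = fc (cs w R) m) :
    ‖b‖ ≤ 16 * (C * R ^ (-γ)) * ∑' m, maj m :=
  Wi.norm_le_of (summable_maj.hasSum.mul_left _) fun m => by
    rw [hb, omP_w, norm_mul, norm_real, Real.norm_of_nonneg (by positivity)]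
    exact h.m2 hR m

variable {J : Jt Ell.triv}

theorem val_J (hR : x₀ < R) (hX : R + 2 ≤ X) (hJ : ∀ i m s, Wi.co (J i) m s = cf w X i m (xr R X s))
    (i : Fin 6) (s : II) (θ : ℝ) :
    val (J i) s θ = jw w i (xr R X s, θ) - aS w X * pj (xr R X s : ℝ) i := by
  have hx := hR.trans_le (xr_mem' hX s).1
  have h1 := fc_hasSum ((h.per_jw i).cs _) ((h.sm_jw i).cont hx)
    (.of_norm_bounded (summable_maj.mul_left _) (h.m0 hx i)) θ
  have e : (fun m => Wi.ex m θ * Wi.co (J i) m s) = fun m => fc (cs (jw w i) (xr R X s)) m *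
      Wi.ex m θ - if m = 0 then aS w X * pj (xr R X s : ℝ) i else 0 := by
    funext m
    rw [hJ, cf]
    split_ifs with hm
    · simp [hm]
    · ring
  exact (e ▸ Rg.hasSum_val _ s θ).unique (h1.sub (hasSum_ite_eq 0 _))

theorem isJet (hR : x₀ < R) (hX : R + 2 ≤ X)
    (hJ : ∀ i m s, Wi.co (J i) m s = cf w X i m (xr R X s)) : IsJet (dgam R X) J := by
  have hx := fun s => hR.trans_le (xr_mem' hX s).1
  have t0 := fun s m => h.sm.fc_dt h.per (hx s) m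
  refine ⟨fun m => der_of_dv hX (fun x hx => (h.d0 (hR.trans_le hx.1) m).hasDerivWithinAt) (hJ 0 m)
    (hJ 1 m), fun m => der_of_dv hX (fun x hx => (h.d1 (hR.trans_le hx.1) m).hasDerivWithinAt)
    (hJ 1 m) (hJ 2 m), fun m => ?_, fun m => ?_, fun m => ?_⟩ <;> ext s <;>
    simp only [ContinuousMap.smul_apply, hJ, cf, smul_eq_mul]
  · have := t0 s m
    by_cases hm : m = 0 <;> simp_all [jw, pj]
  · have h1 := (h.sm.dd (1, 0)).fc_dt (h.per.dd _) (hx s) m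
    have e : cs (dd (0, 1) (dd (1, 0) w)) (xr R X s) = cs (dd (1, 0) (dd (0, 1) w)) (xr R X s) :=
      funext fun θ => congrArg ofReal (Po.d21 ((h.sm (_, θ) (hx s)).of_le (by norm_cast)))
    rw [e] at h1
    by_cases hm : m = 0 <;> simp_all [jw, pj]
  · have h1 := (h.sm.dd (0, 1)).fc_dt (h.per.dd _) (hx s) m
    rw [t0] at h1
    have e : (m : ℂ) * I * (m * I * fc (cs w (xr R X s)) m) = -(m : ℂ) ^ 2 * fc (cs w (xr R X s)) m := by
      linear_combination (m : ℂ) ^ 2 * fc (cs w (xr R X s)) m * I_sq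
    rw [e] at h1
    by_cases hm : m = 0 <;> simp_all [jw, pj]

theorem vj_J (hR : x₀ < R) (hX : R + 2 ≤ X) (hJ : ∀ i m s, Wi.co (J i) m s = cf w X i m (xr R X s))
    (s : II) (θ : ℝ) (i : Fin 6) :
    vj R X (aS w X) J s θ i = (if i = 0 then 1 else 0) + jw w i (xr R X s, θ) := by
  rw [vj_eq, h.val_J hR hX hJ, gam_real]; ring

theorem sol (hR : x₀ < R) (h2 : 2 ≤ R) (hX : R + 2 ≤ X)
    (hJ : ∀ i m s, Wi.co (J i) m s = cf w X i m (xr R X s)) {b : Wi (omP 2)}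
    (hb : ∀ m, Wi.co b m = fc (cs w R) m) {H : Wi (omF Ell.triv)}
    (hH : ∀ m, Wi.co H m = cf w X 1 m X) :
    Sol R ((X : ℂ), aS w X, b, H, fc (cs w X) 1, fc (cs w X) (-1)) J where
  jet := h.isJet hR hX hJ
  bc := by
    refine ⟨fun m hm => ?_, fun m => ?_, ?_, ?_, ?_⟩ <;> simp only [hJ, xr_i0, xr_i1]
    · rw [cf_ne (by rintro rfl; simp at hm), hb]; rfl
    · rw [hH]
    · have : ((X : ℂ) ^ 2 - 2) / 2 ≠ 0 := by
        have : (X ^ 2 - 2) / 2 ≠ 0 := by nlinarith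
        exact_mod_cast this
      simp only [cf, aS, if_true, pj, jw, Matrix.cons_val_zero]
      rw [div_mul_cancel₀ _ this, sub_self]
    · exact cf_ne one_ne_zero 0
    · exact cf_ne (by decide) 0
  eq s θ := by
    have := congrArg ofReal (h.eq (xr R X s, θ) (hR.trans_le (xr_mem' hX s).1))
    simp only [h.vj_J hR hX hJ, gam_real]
    simpa [Po.EL, Po.QQ, jw] using this

end Rt

end Crest.Agent.N250.S9

end
end

-- ▼ part N250/S9/Id

/-!
Row 250 (helper94): the end of the shrinker is the limit of the solver's family.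
-/

set_option autoImplicit false
open Set Complex Metric Filter Topology

noncomputable section

namespace Crest.Agent.N250.S9

open B1 Ra

variable {w : ℝ × ℝ → ℝ} {x₀ C γ x R X K g g' δ : ℝ}

/-- the sum of the majorant -/
def cM : ℝ := ∑' m, maj m


theorem wb_of {f0 f : ℝ → ℝ} {u : Wi (om Ell.triv)} {D : ℝ}
    (h0 : ∀ s : II, ‖Wi.co u 0 s‖ ≤ D * f0 (xr R X s))
    (h1 : ∀ m, m ≠ 0 → ∀ s : II, ‖Wi.co u m s‖ ≤ D * maj m * f (xr R X s)) :
    WB R X f0 f u (D * cM) :=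
  ⟨fun m => D * maj m, summable_maj.mul_left D, (tsum_mul_left (a := D)).le,
    by simpa [maj_zero] using h0, fun m hm s => by simpa [Ell.triv] using h1 m hm s⟩

theorem rho_ge (hK : 0 ≤ K) (h2 : 2 ≤ x) (hx : x ≤ X) : (X - x) / X ≤ rho K X x := by
  have hX : 0 < X := by linarith
  have h1 : 0 ≤ (x ^ 2 - 2) / X ^ 2 * (2 * K / X ^ 2) :=
    mul_nonneg (div_nonneg (by nlinarith) (by positivity)) (by positivity)
  have h3 : (x ^ 2 - 2) / X ^ 2 ≤ x / X := by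
    rw [div_le_div_iff₀ (by positivity) hX]
    nlinarith [mul_le_mul_of_nonneg_left hx (show 0 ≤ x * X by nlinarith)]
  rw [rho, sub_div, div_self hX.ne']
  linarith

theorem Ex.lt_two (hg : Ex g g') : g < 2 := by obtain ⟨-, h1, h2⟩ := hg; linarith

theorem fn_single {ℓ : Ell} (b : Wi (omP 2)) (h : ℂ) :
    fn g X ((b, Wi.single _ 0 h, 0) : Dat ℓ) = X * ‖h‖ := by simp [fn]

namespace Rt

variable (h : Rt w x₀ C γ)
include h

theorem pw (hγ : g ≤ γ) (hR : 0 < R) (hx : R ≤ x) (hδ : C * R ^ (g - γ) ≤ δ) :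
    C * x ^ (-γ) ≤ δ * x ^ (-g) := by
  have h0 : 0 < x := hR.trans_le hx
  rw [show -γ = g - γ + -g by ring, Real.rpow_add h0, ← mul_assoc]
  refine mul_le_mul_of_nonneg_right (le_trans (mul_le_mul_of_nonneg_left
    (Real.rpow_le_rpow_of_nonpos hR hx (by linarith)) h.C0) hδ) (by positivity)

theorem pw' (hg : 0 ≤ g) (hγ : g ≤ γ) (hR : 1 ≤ R) (hx : R ≤ x) (hδ : C * R ^ (g - γ) ≤ δ) :
    C * x ^ (-γ) ≤ δ :=
  (h.pw hγ (by linarith) hx hδ).trans (mul_le_of_le_one_right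
    (le_trans (mul_nonneg h.C0 (by positivity)) hδ)
    (Real.rpow_le_one_of_one_le_of_nonpos (by linarith) (by linarith)))

section
variable (hg : 0 ≤ g) (hγ : g ≤ γ) (hR : x₀ < R) (h2 : 2 ≤ R) (hδ : C * R ^ (g - γ) ≤ δ)
include hg hγ hR h2 hδ

theorem a_le (hX : R ≤ X) : ‖aS w X‖ * X ^ 2 ≤ 16 * δ :=
  (h.aS_le (hR.trans_le hX) (h2.trans hX)).trans (by linarith [h.pw' hg hγ (by linarith) hX hδ])

theorem cf0_le (hx : x ∈ Icc R X) (i : Fin 6) : ‖cf w X i 0 x‖ ≤ 20 * δ := by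
  have h1 := h.m0 (hR.trans_le hx.1) i 0
  have h3 := h.pw' hg hγ (by linarith) hx.1 hδ
  have h4 := h.a_le hg hγ hR h2 hδ (hx.1.trans hx.2)
  have h5 := mul_le_mul_of_nonneg_left ((pj_le (h2.trans hx.1) i).trans
      (pow_le_pow_left₀ (by linarith [hx.1]) hx.2 2)) (norm_nonneg (aS w X))
  rw [maj_zero] at h1
  refine (norm_sub_le _ _).trans ?_
  rw [if_pos rfl, norm_mul]
  linarith

theorem cf1_le (hx : x ∈ Icc R X) : x * ‖cf w X 1 0 x‖ ≤ 24 * δ := by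
  have h0 : 0 ≤ x := by linarith [hx.1]
  have h1 := h.m1 (hR.trans_le hx.1) h0 0
  have h3 := h.pw' hg hγ (by linarith) hx.1 hδ
  have h4 := h.a_le hg hγ hR h2 hδ (hx.1.trans hx.2)
  have h5 := mul_le_mul_of_nonneg_left (pow_le_pow_left₀ h0 hx.2 2) (norm_nonneg (aS w X))
  have h6 : ‖cf w X 1 0 x‖ ≤ ‖fc (cs (jw w 1) x) 0‖ + ‖aS w X‖ * x := by
    refine (norm_sub_le _ _).trans ?_
    simp [pj, abs_of_nonneg h0]
  simp only [maj_zero, Int.cast_zero, abs_zero, add_zero, one_mul, mul_one] at h1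
  nlinarith [mul_le_mul_of_nonneg_left h6 h0]

theorem cf00_le (hK : 0 ≤ K) (hx : x ∈ Icc R X) : ‖cf w X 0 0 x‖ ≤ 48 * δ * rho K X x := by
  have h0 : 0 < x := by linarith [hx.1]
  have hX : 0 < X := h0.trans_le hx.2
  have hd : 0 ≤ δ := le_trans (mul_nonneg h.C0 (by positivity)) hδ
  refine le_trans ?_ (mul_le_mul_of_nonneg_left (rho_ge hK (h2.trans hx.1) hx.2) (by positivity))
  rcases le_total x (X / 2) with h1 | h1
  · have : 1 / 2 ≤ (X - x) / X := by rw [le_div_iff₀ hX]; linarith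
    nlinarith [h.cf0_le hg hγ hR h2 hδ hx 0]
  · have e : cf w X 0 0 X = 0 := by
      have : ((X : ℂ) ^ 2 - 2) / 2 ≠ 0 := by
        have : (X ^ 2 - 2) / 2 ≠ 0 := by nlinarith [hx.1, hx.2]
        exact_mod_cast this
      simp only [cf, aS, if_true, pj, jw, Matrix.cons_val_zero]
      rw [div_mul_cancel₀ _ this, sub_self]
    have := (convex_Icc x X).norm_image_sub_le_of_norm_hasDerivWithin_le (f := cf w X 0 0)
      (f' := cf w X 1 0) (C := 48 * δ / X)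
      (fun y hy => (h.d0 (hR.trans_le (hx.1.trans hy.1)) 0).hasDerivWithinAt)
      (fun y hy => by
        rw [le_div_iff₀ hX]
        nlinarith [h.cf1_le hg hγ hR h2 hδ ⟨hx.1.trans hy.1, hy.2⟩, norm_nonneg (cf w X 1 0 y), hy.1])
      (left_mem_Icc.2 hx.2) (right_mem_Icc.2 hx.2)
    rw [e, zero_sub, norm_neg, Real.norm_of_nonneg (by linarith [hx.2])] at this
    exact this.trans (le_of_eq (by ring))

end

/-- the jet lies in a small ball -/
theorem inB (hg : Ex g g') (hγ : g ≤ γ) (hR : x₀ < R) (h2 : 2 ≤ R) (hδ : C * R ^ (g - γ) ≤ δ)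
    (hδ' : 32 * δ ≤ 1) (hK : 0 ≤ K) (hX : R + 2 ≤ X) {J : Jt Ell.triv}
    (hJ : ∀ i m s, Wi.co (J i) m s = cf w X i m (xr R X s)) :
    InB R K g g' X (aS w X) (48 * δ * cM) J := by
  have g0 : 0 ≤ g := by linarith [hg.1]
  have hd : 0 ≤ δ := le_trans (mul_nonneg h.C0 (by positivity)) hδ
  have ha : ‖aS w X‖ * X ^ 2 ≤ 1 / 2 := by linarith [h.a_le g0 hγ hR h2 hδ (X := X) (by linarith)]
  have hx := xr_mem' hX
  have x2 := fun s => h2.trans (hx s).1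
  have hW := fun s => W_ge hg (x2 s) (hx s).2 ha
  have hη := fun s => (et_near (x2 s) (hx s).2 ha).2
  have hp := fun s => h.pw hγ (by linarith) (hx s).1 hδ
  have p0 : ∀ s : II, 0 < xr R X s ^ (-g) := fun s => by have := x2 s; positivity
  have k0 : ∀ i (s : II), ‖Wi.co (J i) 0 s‖ ≤ 48 * δ * 1 := fun i s => by
    rw [hJ]; linarith [h.cf0_le g0 hγ hR h2 hδ (hx s) i]
  have k1 : ∀ i m, m ≠ 0 → ∀ (s : II) (F : ℝ), xr R X s ^ (-g) / 12 ≤ F →
      ‖Wi.co (J i) m s‖ ≤ 48 * δ * maj m * F := fun i m hm s F hF => by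
    rw [hJ, cf_ne hm]
    have := maj_pos m
    calc _ ≤ _ := h.m0 (hR.trans_le (hx s).1) i m
      _ ≤ 4 * (δ * xr R X s ^ (-g)) * maj m := by have := hp s; gcongr
      _ = 48 * δ * maj m * (xr R X s ^ (-g) / 12) := by ring
      _ ≤ _ := by gcongr
  refine ⟨wb_of (fun s => hJ 0 0 s ▸ h.cf00_le g0 hγ hR h2 hδ hK (hx s))
      fun m hm s => k1 0 m hm s _ (by linarith [hW s, p0 s]),
    wb_of (fun s => ?_) fun m hm s => ?_,
    wb_of (k0 2) fun m hm s => k1 2 m hm s _ ?_,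
    wb_of (k0 3) fun m hm s => k1 3 m hm s _ (by linarith [hW s, p0 s]),
    wb_of (k0 4) fun m hm s => k1 4 m hm s _ (by nlinarith [hW s, p0 s, x2 s]),
    wb_of (k0 5) fun m hm s => k1 5 m hm s _ (by linarith [hW s, p0 s])⟩
  · rw [hJ, ← div_eq_mul_inv, le_div_iff₀ (by linarith [x2 s])]
    linarith [h.cf1_le g0 hγ hR h2 hδ (hx s)]
  · have h1 := h.m1 (hR.trans_le (hx s).1) (by linarith [x2 s]) m
    have h3 := maj_pos m
    have h4 := x2 s
    have h5 := hη s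
    rw [hJ, cf_ne hm, ← mul_div_assoc, le_div_iff₀ (by nlinarith)]
    set N := ‖fc (cs (jw w 1) (xr R X s)) m‖
    have h6 : 0 ≤ xr R X s * N := by positivity
    have h7 : xr R X s * N ≤ 8 * (δ * xr R X s ^ (-g)) * maj m := by
      have := mul_le_mul_of_nonneg_right (hp s) h3.le
      nlinarith [mul_nonneg h6 (abs_nonneg (m : ℝ))]
    have h8 := mul_le_mul_of_nonneg_left (hW s) (mul_nonneg hd h3.le)
    nlinarith [mul_le_mul_of_nonneg_left h5.2 h6, mul_nonneg (mul_nonneg hd h3.le) (p0 s).le]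
  · rw [le_div_iff₀ (by linarith [(hη s).1])]
    nlinarith [hW s, p0 s, (hη s).2]

/-- the far data are small -/
theorem fn_le (hg : 0 ≤ g) (hγ : g ≤ γ) (hX : x₀ < X) (h2 : 2 ≤ X) (b : Wi (omP 2))
    {H : Wi (omF Ell.triv)} (hH : ∀ m, Wi.co H m = cf w X 1 m X) :
    fn g X (b, H, fc (cs w X) 1, fc (cs w X) (-1)) ≤ (48 + 24 * cM) * (C * X ^ (g - γ)) := by
  have h0 : 0 < X := by linarith
  have hc : 0 ≤ C * X ^ (-γ) := by have := h.C0; positivity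
  have h1 := h.cf1_le hg hγ hX h2 le_rfl (X := X) (left_mem_Icc.2 le_rfl)
  have h3 : ‖H - Wi.single _ 0 (Wi.co H 0)‖ ≤ 8 * (C * X ^ (-γ)) / X * cM :=
    Wi.norm_le_of (summable_maj.hasSum.mul_left _) fun m => by
      rw [Wi.co_sub, Wi.co_single]
      split_ifs with hm
      · rw [hm, sub_self, mul_zero, norm_zero, maj_zero]; positivity
      · rw [sub_zero, hH]; exact h.far_le hX h2 hm
  have h4 : ∀ m, ‖fc (cs w X) m‖ ≤ 4 * (C * X ^ (-γ)) := fun m =>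
    (h.m0 hX 0 m).trans (mul_le_of_le_one_right (by positivity) (by
      rw [maj, div_le_one (by positivity)]; nlinarith [sq_nonneg (m : ℝ)]))
  have h5 : X * ‖H - Wi.single _ 0 (Wi.co H 0)‖ ≤ 8 * (C * X ^ (-γ)) * cM :=
    (mul_le_mul_of_nonneg_left h3 h0.le).trans (le_of_eq (by field_simp))
  have e : C * X ^ (g - γ) = X ^ g * (C * X ^ (-γ)) := by
    rw [sub_eq_add_neg, Real.rpow_add h0]; ring
  have h6 : 0 < X ^ g := by positivity
  have h7 := mul_le_mul_of_nonneg_left (add_le_add (add_le_add h5 (h4 1)) (h4 (-1))) h6.le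
  simp only [fn, hH 0] at h7 ⊢
  rw [e] at h1 ⊢
  nlinarith

theorem b_le' (hR : x₀ < R) (h0 : 0 < R) {b : Wi (omP 2)} (hb : ∀ m, Wi.co b m = fc (cs w R) m) :
    R ^ g * ‖b‖ ≤ 16 * cM * (C * R ^ (g - γ)) := by
  refine (mul_le_mul_of_nonneg_left (h.b_le hR hb) (by positivity)).trans (le_of_eq ?_)
  rw [sub_eq_add_neg, Real.rpow_add h0, cM]; ring

omit h in
theorem ev (hγ : g < γ) (A : ℝ) {t : ℝ} (ht : 0 < t) :
    ∀ᶠ x : ℝ in atTop, A * (C * x ^ (g - γ)) < t := by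
  have := ((tendsto_rpow_neg_atTop (sub_pos.2 hγ)).const_mul C).const_mul A
  rw [neg_sub, mul_zero, mul_zero] at this
  exact this.eventually (gt_mem_nhds ht)

/-- **membership**: the decaying solution is a member of the family for the trivial symbol -/
theorem mem {ε ε1 B : ℝ} (hg : Ex g g') (hγ : g < γ) (hε : 0 < ε) (hε1 : 0 < ε1) :
    ∀ᶠ R in atTop, ∀ b : Wi (omP 2), (∀ m, Wi.co b m = fc (cs w R) m) → R ^ g * ‖b‖ < ε / 2 ∧
      ∀ K, 0 ≤ K → ∀ U, IsEnd R K g g' ε ε1 B Ell.triv U → ∀ t > 0, ∀ᶠ X : ℝ in atTop,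
        ∃ F, fn g X (b, F) < t ∧ ‖aS w X‖ * X ^ 2 < t ∧
          ∀ i m s, Wi.co (U (X, aS w X, b, F) i) m s = cf w X i m (xr R X s) := by
  have g0 : 0 ≤ g := by linarith [hg.1]
  filter_upwards [eventually_gt_atTop x₀, eventually_ge_atTop 2, ev (C := C) hγ 32 one_pos,
    ev (C := C) hγ (48 * cM) hε1, ev (C := C) hγ (16 * cM) (half_pos hε)] with R r1 r2 r3 r4 r5 b hb
  have hb' := (h.b_le' (g := g) r1 (by linarith) hb).trans_lt r5
  refine ⟨hb', fun K hK U hU t ht => ?_⟩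
  filter_upwards [eventually_gt_atTop (2 * R + 4), eventually_gt_atTop (2 * √K),
    ev (C := C) hγ (48 + 24 * cM) (lt_min ht (half_pos hε)), ev (C := C) hγ 16 ht] with X x1 x2 x3 x4
  obtain ⟨J, hJ⟩ := h.exists_J (X := X) r1 r2 (by linarith)
  obtain ⟨H, hH⟩ := h.exists_H (X := X) (by linarith) (by linarith)
  have f1 := (h.fn_le g0 hγ.le (X := X) (by linarith) (by linarith) b hH).trans_lt x3
  refine ⟨(H, _, _), f1.trans_le (min_le_left _ _), (h.a_le g0 hγ.le (R := X) (by linarith)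
    (by linarith) le_rfl le_rfl).trans_lt x4, ?_⟩
  rw [← hU.uniq _ (dom_of hg (by linarith) hK x1 x2
    (by linarith [h.a_le g0 hγ.le r1 r2 le_rfl (X := X) (by linarith)])
    (by linarith [f1.trans_le (min_le_right _ _)])) J (h.sol r1 r2 (by linarith) hJ hb hH)
    (Cj.inB_mono (h.inB (X := X) hg hγ.le r1 r2 le_rfl r3.le hK (by linarith) hJ) (by linarith))]
  exact hJ

end Rt

/-- the parameter with far slope `h` in the mode `0` only -/
def zq (ℓ : Ell) (X a h : ℂ) (b : Wi (omP 2)) : Par ℓ := (X, a, b, Wi.single _ 0 h, 0, 0)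

theorem cP_zq {ℓ ℓ' : Ell} (hl : Le ℓ' ℓ) (X a h : ℂ) (b : Wi (omP 2)) :
    cP hl (zq ℓ X a h b) = zq ℓ' X a h b := by simp [cP, zq, cF_single]

/-- **identification**, abstract form -/
theorem Rt.ident (h : Rt w x₀ C γ) {ε ε1 B : ℝ} (hg : Ex g g') (hγ : g < γ) (hε : 0 < ε)
    (hε1 : 0 < ε1) (hB : 0 ≤ B) :
    ∀ᶠ R in atTop, ∀ b : Wi (omP 2), (∀ m, Wi.co b m = fc (cs w R) m) → R ^ g * ‖b‖ < ε / 2 ∧
      ∀ K, 1 ≤ K → B * (3 / K + ε) ≤ ε1 → ∀ ℓ U U0, IsEnd R K g g' ε ε1 B ℓ U →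
        IsEnd R K g g' ε ε1 B Ell.triv U0 → ∀ t > 0, ∃ δ > 0, ∀ᶠ X : ℝ in atTop, ∀ a h : ℂ,
          ‖a‖ * X ^ 2 ≤ δ → X * ‖h‖ ≤ δ → zq ℓ X a h b ∈ Dom R K g g' ε ∧ ∀ s θ i,
            ‖vj R X a (U (zq ℓ X a h b)) s θ i -
              ((if i = 0 then 1 else 0) + jw w i (xr R X s, θ))‖ ≤ t := by
  filter_upwards [h.mem (B := B) hg hγ hε hε1, eventually_gt_atTop x₀, eventually_ge_atTop 2] with R hm
    r1 r2 b hb
  obtain ⟨hb', hm⟩ := hm b hb
  refine ⟨hb', fun K hK hB' ℓ U U0 hU hU0 t ht => ?_⟩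
  obtain ⟨ρ, hρ, hρ'⟩ : ∃ ρ : ℝ, 1 < ρ ∧ (24 * ε1 + 1) / ρ ≤ t :=
    ⟨2 + (24 * ε1 + 1) / t, by have : 0 < (24 * ε1 + 1) / t := by positivity
                               linarith, by
      rw [div_le_iff₀ (by positivity), mul_add, mul_div_cancel₀ _ ht.ne']; linarith⟩
  have ρ0 : 0 < ρ := by linarith
  have d0 : 0 < min 1 ε / 2 / ρ := by positivity
  have d1 : ∀ {y}, y ≤ min 1 ε / 2 / ρ → ρ * y ≤ 1 / 2 ∧ ρ * y ≤ ε / 2 := fun hy => by
    rw [le_div_iff₀ ρ0] at hy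
    constructor <;> linarith [min_le_left 1 ε, min_le_right 1 ε]
  refine ⟨_, d0, ?_⟩
  filter_upwards [hm K (by linarith) U0 hU0 _ d0, eventually_gt_atTop (2 * R + 4),
    eventually_gt_atTop (2 * √K)] with X ⟨F, f1, f2, f3⟩ x1 x2 a k ha hk
  have a0 : 0 ≤ ‖a‖ * X ^ 2 := by positivity
  have k0 : 0 ≤ X * ‖k‖ := mul_nonneg (by linarith) (norm_nonneg _)
  have hz : zq ℓ X a k b ∈ Dom R K g g' ε := dom_of hg (by linarith) (by linarith) x1 x2
    (by nlinarith [(d1 ha).1]) (by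
      have := fn_single (g := g) (X := X) (ℓ := ℓ) b k
      exact lt_of_lt_of_le (add_lt_add_of_lt_of_le hb' this.le) (by nlinarith [(d1 hk).2]))
  refine ⟨hz, fun s θ i => ?_⟩
  have s1 := schwarz hU0 hg r2 hK hB hB' x1 x2 hb' (F := (Wi.single _ 0 k, 0)) hρ (d1 ha).1
    (by rw [fn_single]; exact (d1 hk).2)
  have s2 := schwarz hU0 hg r2 hK hB hB' x1 x2 hb' hρ (d1 f2.le).1 (d1 f1.le).2
  rw [norm_sub_rev] at s2
  have s3 := (norm_sub_le_norm_sub_add_norm_sub _ _ _).trans (add_le_add s1 s2)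
  have hx := xr_mem' (R := R) (X0 := X) (by linarith) s
  rw [← vj_cJ (triv_le ℓ), end_cast (triv_le ℓ) hU hU0 r2 hK hB hB' hz, cP_zq,
    ← h.vj_J r1 (by linarith) f3, vj_eq, vj_eq, gam_real]
  set J1 := U0 (zq Ell.triv X a k b)
  set J2 := U0 (X, aS w X, b, F)
  have e : val (J1 i) s θ - val (J2 i) s θ = Wi.syn ((J1 - J2) i) θ s := by
    rw [← Wi.ev_apply, Pi.sub_apply, map_sub]; rfl
  have s4 : ‖val (J1 i) s θ - val (J2 i) s θ‖ ≤ 12 * ε1 / ρ + 12 * ε1 / ρ := by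
    rw [e]
    exact (((ContinuousMap.norm_coe_le_norm _ s).trans (Wi.norm_syn_le _ θ)).trans
      (norm_le_pi_norm _ i)).trans s3
  have s5 := (pj_le (r2.trans hx.1) i).trans (pow_le_pow_left₀ (by linarith [hx.1]) hx.2 2)
  have s6 : ‖(a - aS w X) * pj (xr R X s : ℝ) i‖ ≤ 1 / ρ := by
    rw [norm_mul, le_div_iff₀ ρ0]
    have := mul_le_mul (norm_sub_le a (aS w X)) s5 (norm_nonneg _) (by positivity)
    nlinarith [(d1 ha).1, (d1 f2.le).1]
  calc _ = ‖(a - aS w X) * pj (xr R X s : ℝ) i + (val (J1 i) s θ - val (J2 i) s θ)‖ := by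
        congr 1; ring
    _ ≤ 1 / ρ + (12 * ε1 / ρ + 12 * ε1 / ρ) := (norm_add_le _ _).trans (add_le_add s6 s4)
    _ = (24 * ε1 + 1) / ρ := by ring
    _ ≤ t := hρ'

/-! ### the ends of a shrinker -/

variable {S : Mv}

/-- `v = r² / 2` on the end `j` -/
def vS (e : Ends S) (j : Fin e.p) (q : ℝ × ℝ) : ℝ := e.r j q ^ 2 / 2

/-- its jets `(v, v_x, v_xx, v_θ, v_xθ, v_θθ)` -/
def jS (e : Ends S) (j : Fin e.p) (q : ℝ × ℝ) (i : Fin 6) : ℂ := jw (vS e j) i q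

theorem jS_eq (e : Ends S) (j : Fin e.p) (q : ℝ × ℝ) (i : Fin 6) :
    jS e j q i = (if i = 0 then 1 else 0) + jw (wE e j) i q := by
  have e1 : ∀ u, dd u (wE e j) = dd u (vS e j) := fun u => dd_sub_one u _
  fin_cases i <;> simp [jS, jw, e1]
  simp [vS, wE]

theorem exists_rt (hS : S.IsShr) (e : Ends S) (j : Fin e.p) (h0 : 0 ≤ γ) (h2 : γ < 2) :
    ∃ x₀ C, Rt (wE e j) x₀ C γ := by
  obtain ⟨C, x₀, hC, -, hx, h⟩ := ends_rate2 hS e j h0 h2 4
  have e1 : ∀ u, dd u (wE e j) = dd u fun q => e.r j q ^ 2 / 2 := fun u => dd_sub_one u _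
  refine ⟨x₀, C, fun q hq => sm_wE e j q (hx.trans hq), per_wE e j, hC.le, h0,
    fun i hi q hq => (h i hi q hq.le).1, fun i hi q hq => (h i hi q hq.le).2, fun q hq => ?_⟩
  have := Po.ends_EL hS e j (hx.trans hq)
  simp only [jw, e1, wE, add_sub_cancel]
  exact this

open Classical in
/-- the Dirichlet datum of the end on the circle `x = R` -/
def b0 (e : Ends S) (j : Fin e.p) (R : ℝ) : Wi (omP 2) :=
  if h : Summable fun m => ‖(omP 2).w m * fc (cs (wE e j) R) m‖ then Wi.mk _ _ h else 0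

theorem co_b0 (e : Ends S) (j : Fin e.p) (hR : e.R < R) (m : ℤ) :
    Wi.co (b0 e j R) m = fc (cs (wE e j) R) m := by
  have hc : ∀ i : ℕ, ∃ M, ∀ θ, ‖iteratedFDeriv ℝ i (wE e j) (R, θ)‖ ≤ M := fun i => by
    have h1 : Continuous fun θ => iteratedFDeriv ℝ i (wE e j) (R, θ) :=
      continuous_iff_continuousAt.2 fun θ => ContinuousAt.comp (f := fun θ => (R, θ))
        ((sm_wE e j (R, θ) hR).iteratedFDeriv_right (m := 0) (by exact_mod_cast le_top)).continuousAt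
        (by fun_prop)
    exact (Function.Periodic.isBounded_of_continuous (fun θ => (per_wE e j).jet i R θ)
      (by positivity) h1).exists_norm_le.imp fun M hM θ => hM _ ⟨θ, rfl⟩
  choose M hM using hc
  rw [b0, dif_pos, Wi.co_mk]
  refine .of_nonneg_of_le (fun _ => norm_nonneg _) (fun m => ?_)
    (summable_maj.mul_left (2 ^ (2 + 2) * ∑ i ∈ Finset.range 5, |M i|))
  rw [omP_w, norm_mul, norm_real, Real.norm_of_nonneg (by positivity)]
  exact decay (sm_wE e j) (per_wE e j) hR 2 (fun i hi θ => ((hM i θ).trans (le_abs_self _)).trans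
    (Finset.single_le_sum (f := fun i => |M i|) (fun _ _ => abs_nonneg _)
      (Finset.mem_range.2 (by omega)))) m


/-- the datum is small -/
theorem b0_le (hS : S.IsShr) (e : Ends S) (j : Fin e.p) (hg : g < 2) {t : ℝ} (ht : 0 < t) :
    ∀ᶠ R in atTop, R ^ g * ‖b0 e j R‖ < t := by
  obtain ⟨γ, h0, h1, h2⟩ : ∃ γ, 0 ≤ γ ∧ g < γ ∧ γ < 2 := ⟨(max g 0 + 2) / 2, by positivity,
    by linarith [le_max_left g 0], by linarith [max_lt hg two_pos]⟩
  obtain ⟨x₀, C, h⟩ := exists_rt hS e j h0 h2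
  filter_upwards [eventually_gt_atTop x₀, eventually_gt_atTop e.R, eventually_gt_atTop (0 : ℝ),
    Rt.ev (C := C) h1 (16 * cM) ht] with R r1 r2 r3 r4
  exact (h.b_le' r1 r3 (co_b0 e j r2)).trans_lt r4

/-- **identification of the end of `S`** with the limit of the solver's family -/
theorem ident (hS : S.IsShr) (e : Ends S) (j : Fin e.p) {ε ε1 B : ℝ} (hg : Ex g g') (hε : 0 < ε)
    (hε1 : 0 < ε1) (hB : 0 ≤ B) :
    ∀ᶠ R in atTop, R ^ g * ‖b0 e j R‖ < ε / 2 ∧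
      ∀ K, 1 ≤ K → B * (3 / K + ε) ≤ ε1 → ∀ ℓ U U0, IsEnd R K g g' ε ε1 B ℓ U →
        IsEnd R K g g' ε ε1 B Ell.triv U0 → ∀ t > 0, ∃ δ > 0, ∀ᶠ X : ℝ in atTop, ∀ a h : ℂ,
          ‖a‖ * X ^ 2 ≤ δ → X * ‖h‖ ≤ δ → zq ℓ X a h (b0 e j R) ∈ Dom R K g g' ε ∧ ∀ s θ i,
            ‖vj R X a (U (zq ℓ X a h (b0 e j R))) s θ i - jS e j (xr R X s, θ) i‖ ≤ t := by
  have := Ex.lt_two hg
  obtain ⟨x₀, C, h⟩ := exists_rt hS e j (γ := (g + 2) / 2) (by linarith [hg.1]) (by linarith)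
  filter_upwards [h.ident hg (by linarith) hε hε1 hB, eventually_gt_atTop e.R] with R hR r1
  simpa only [jS_eq] using hR _ (co_b0 e j r1)

end Crest.Agent.N250.S9

end
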