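import Crest.Agent.N250.S9.Id
import Crest.Agent.N250.Ce.Close
import Crest.Agent.N250.Ec.Dat
import Crest.Agent.N250.B1.Sm4

/-!
Row 250 (helper94): the identification for one family, from `EndS`.
-/

set_option autoImplicit false
open Set Complex Metric Filter Topology

noncomputable section

namespace Crest.Agent.N250.S9

open B1 Ra

variable {S : Mv} {R K K' g g' ε M X : ℝ} {ℓ : Ell}

theorem b0_eq_four (e : Ends S) (j : Fin e.p) (R : ℝ) :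
    b0 e j R = Ec.four 2 fun θ => (vS e j (R, θ) : ℂ) - 1 := by
  have : (fun θ => (vS e j (R, θ) : ℂ) - 1) = cs (wE e j) R := funext fun θ => by simp [cs, wE, vS]
  rw [this]; rfl


/-- the balls grow with `K` -/
theorem inB_monoK {z : Par ℓ} {J : Jt ℓ} (hR : 2 ≤ R) (hK : 1 ≤ K) (hK' : K ≤ K')
    (hz : z ∈ Dom R K g g' ε) (hJ : InB R K g g' z.1.re z.2.1 M J) :
    InB R K' g g' z.1.re z.2.1 M J := by
  have p := Rg.pt_of_dom hR hK hz
  refine ⟨?_, hJ.b1, hJ.b2, hJ.b3, hJ.b4, hJ.b5⟩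
  rw [← one_mul M]
  refine hJ.b0.wt (fun s => (p s).rho_pos) (fun s => (p s).W_pos g g') zero_le_one (fun s => ?_)
    fun s => (one_mul _).ge
  have h1 := (p s).t_mem.1
  have h2 : 2 * K / z.1.re ^ 2 ≤ 2 * K' / z.1.re ^ 2 := by gcongr
  rw [one_mul, rho, rho]
  nlinarith [mul_le_mul_of_nonneg_left h2 h1]

/-- **identification of the end of `S`** for any family of the solver -/
theorem ident' (hE : EndS) (hS : S.IsShr) (e : Ends S) (j : Fin e.p) {B : ℝ} (hg : Ex g g')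
    (hε : 0 < ε) (hB : 0 ≤ B) :
    ∀ᶠ R in atTop, R ^ g * ‖b0 e j R‖ < ε / 2 ∧ ∀ K, 1 ≤ K → ∀ ε1 ℓ U, IsEnd R K g g' ε ε1 B ℓ U →
      ∀ t > 0, ∃ δ > 0, ∀ᶠ X : ℝ in atTop, ∀ a h : ℂ, ‖a‖ * X ^ 2 ≤ δ → X * ‖h‖ ≤ δ →
        zq ℓ X a h (b0 e j R) ∈ Dom R K g g' ε ∧ ∀ s θ i,
          ‖vj R X a (U (zq ℓ X a h (b0 e j R))) s θ i - jS e j (xr R X s, θ) i‖ ≤ t := by
  obtain ⟨R1, K1, c0, ε', ε1', C', hR1, hK1, hc0, hε', hC', -, h2, h3⟩ := hE g g' hg 1 one_pos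
  have he : 0 < ε1' := by
    have : 0 < C' * (3 / K1 + ε') := by positivity
    linarith
  have hd : 0 < ε1' / (4 * (B + 1)) := by positivity
  have hd' : B * (3 * (ε1' / (4 * (B + 1)))) ≤ ε1' := by
    rw [← mul_div_assoc, ← mul_div_assoc, div_le_iff₀ (by positivity)]; nlinarith
  filter_upwards [ident hS e j hg hε' he hC'.le, b0_le hS e j (Ex.lt_two hg) (half_pos hε),
    b0_le hS e j (Ex.lt_two hg) hd, eventually_ge_atTop R1, eventually_ge_atTop 2] with R ⟨_, hi⟩ r1 r2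
    r3 r4
  refine ⟨r1, fun K hK ε1 ℓ U hU t ht => ?_⟩
  obtain ⟨U0, hU0⟩ := h3 R (max K K1) r3 (le_max_right _ _) Ell.triv fun m => by
    show 0 ≤ _; positivity
  obtain ⟨δ, hδ, hi⟩ := hi (max K K1) (le_max_of_le_left hK) (le_trans (by
    have : 3 / max K K1 ≤ 3 / K1 := by gcongr; exact le_max_right _ _
    nlinarith) (h2.trans (by linarith))) _ U0 U0 hU0 hU0 t ht
  refine ⟨min (min δ (1 / 2)) (min (ε / 2) (ε1' / (4 * (B + 1)))), by positivity, ?_⟩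
  filter_upwards [hi, eventually_gt_atTop (2 * R + 4), eventually_gt_atTop (2 * √K)] with X hi x1 x2 a
    k ha hk
  simp only [le_min_iff] at ha hk
  have hz : zq ℓ X a k (b0 e j R) ∈ Dom R K g g' ε := dom_of hg (by linarith) (by linarith) x1 x2
    ha.1.2 (lt_of_lt_of_le (add_lt_add_of_lt_of_le r1 (fn_single (g := g) (X := X) (ℓ := ℓ) _ k).le)
      (by linarith [hk.2.1]))
  obtain ⟨h4, h5⟩ := hi a k ha.1.1 hk.1.1
  refine ⟨hz, fun s θ i => ?_⟩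
  have h6 := sol_cast (triv_le ℓ) (hU.sol _ hz)
  rw [cP_zq] at h6
  have h7 : InB R (max K K1) g g' X a ε1' (U (zq ℓ X a k (b0 e j R))) := by
    refine Cj.inB_mono (inB_monoK r4 hK (le_max_left _ _) hz (hU.bd _ hz))
      (le_trans (mul_le_mul_of_nonneg_left ?_ hB) hd')
    have : ‖a‖ * X ^ 2 / K ≤ ‖a‖ * X ^ 2 := div_le_self (by positivity) hK
    simp only [zq, dn, ofReal_re, Wi.co_single_self, sub_self, norm_zero, mul_zero, add_zero, zero_div]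
    linarith [ha.2.2, hk.2.2]
  rw [← vj_cJ (triv_le ℓ), hU0.uniq _ h4 _ h6 (inB_cast _ h7)]
  exact h5 s θ i

/-- the form used by `Ce.close` -/
theorem idt (hE : EndS) (hS : S.IsShr) (e : Ends S) (j : Fin e.p) {B : ℝ} (hε : 0 < ε) (hB : 0 ≤ B) :
    ∀ᶠ R in atTop, R ^ (13 / 8 : ℝ) * ‖b0 e j R‖ < ε / 2 ∧ ∀ K, 1 ≤ K → ∀ ε1 ℓ U,
      IsEnd R K (13 / 8) (7 / 4) ε ε1 B ℓ U → Ce.Idt ℓ R K ε U (b0 e j R) (jS e j) := by
  filter_upwards [ident' hE hS e j Ce.ex0 hε hB] with R ⟨h1, h2⟩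
  refine ⟨h1, fun K hK ε1 ℓ U hU t ht => ?_⟩
  obtain ⟨δ, hδ, h3⟩ := h2 K hK ε1 ℓ U hU t ht
  obtain ⟨X0, h3⟩ := eventually_atTop.1 h3
  exact ⟨δ, X0, hδ, h3⟩




end Crest.Agent.N250.S9

end
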